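import Vale.Agent.P254.L1.E
import Vale.Agent.P254.Unc.Stab2

/-! P254, `L₁` balls: bodies nearly filling an affine image of the unit ball of a subspace of
`L₁`. -/

open MeasureTheory Set Matrix
open scoped Matrix

namespace Vale.Agent.P254.L1

variable {n : ℕ}

theorem num_l1_near (n : ℕ) (hn : 2 ≤ n) :
    (80 / 79 : ℝ) ^ (n + 2) * (((n : ℝ) + 1) * (2 * Real.exp 1) ^ n) < (Real.pi ^ 2) ^ n := by
  have he : Real.exp 1 < 2.7182818286 := Real.exp_one_lt_d9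
  have hpi : 3.1415 < Real.pi := Real.pi_gt_d4
  have he0 : 0 < Real.exp 1 := Real.exp_pos 1
  have hP : (9.869 : ℝ) < Real.pi ^ 2 := by nlinarith
  have hE : 2 * Real.exp 1 < 5.4366 := by linarith
  induction n, hn using Nat.le_induction with
  | base =>
    have h1 : (2 * Real.exp 1) ^ 2 < 5.4366 ^ 2 := by
      apply pow_lt_pow_left₀ hE (by positivity) (by norm_num)
    have h2 : (9.869 : ℝ) ^ 2 < (Real.pi ^ 2) ^ 2 := by
      apply pow_lt_pow_left₀ hP (by norm_num) (by norm_num)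
    norm_num at h1 h2 ⊢
    linarith
  | succ k hk ih =>
    have hk' : (2 : ℝ) ≤ k := by exact_mod_cast hk
    have hpowE : 0 < (80 / 79 : ℝ) ^ (k + 2) * (2 * Real.exp 1) ^ k := by positivity
    push_cast
    have h3 : (80 / 79 : ℝ) * (((k : ℝ) + 1 + 1) * (2 * Real.exp 1)) ≤
        ((k : ℝ) + 1) * Real.pi ^ 2 := by
      nlinarith
    calc (80 / 79 : ℝ) ^ (k + 1 + 2) * (((k : ℝ) + 1 + 1) * (2 * Real.exp 1) ^ (k + 1))
        = ((80 / 79 : ℝ) * (((k : ℝ) + 1 + 1) * (2 * Real.exp 1))) *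
          ((80 / 79 : ℝ) ^ (k + 2) * (2 * Real.exp 1) ^ k) := by ring
      _ ≤ (((k : ℝ) + 1) * Real.pi ^ 2) * ((80 / 79 : ℝ) ^ (k + 2) * (2 * Real.exp 1) ^ k) :=
          mul_le_mul_of_nonneg_right h3 hpowE.le
      _ = ((80 / 79 : ℝ) ^ (k + 2) * (((k : ℝ) + 1) * (2 * Real.exp 1) ^ k)) * Real.pi ^ 2 := by
          ring
      _ < (Real.pi ^ 2) ^ k * Real.pi ^ 2 := mul_lt_mul_of_pos_right ih (by positivity)
      _ = (Real.pi ^ 2) ^ (k + 1) := by ring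

theorem ball_body {μ : Measure (Fin n → ℝ)} (hμ : Integrable (fun v => ‖v‖) μ)
    (hK : Bornology.IsBounded {x | nrm μ x ≤ 1}) : IsConvexBody {x | nrm μ x ≤ 1} := by
  refine ⟨?_, ball_isCompact hμ hK, ?_⟩
  · intro x hx y hy a b ha hb hab
    have hx' : nrm μ x ≤ 1 := hx
    have hy' : nrm μ y ≤ 1 := hy
    show nrm μ (a • x + b • y) ≤ 1
    calc nrm μ (a • x + b • y) ≤ nrm μ (a • x) + nrm μ (b • y) := nrm_add hμ _ _
      _ = a * nrm μ x + b * nrm μ y := by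
          rw [nrm_smul, nrm_smul, abs_of_nonneg ha, abs_of_nonneg hb]
      _ ≤ a * 1 + b * 1 := by gcongr
      _ = 1 := by linarith
  · refine ⟨0, interior_mono (s := {x | nrm μ x < 1}) ?_ ?_⟩
    · intro x (hx : nrm μ x < 1)
      exact (le_of_lt hx : nrm μ x ≤ 1)
    · rw [(isOpen_lt (nrm_continuous hμ) continuous_const).interior_eq]
      show nrm μ 0 < 1
      rw [nrm_zero]
      exact one_pos

/-- Unit balls of subspaces of `L₁` (norms `∫ |⟨x,v⟩| dμ(v)`), their affine images, and the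
bodies filling `79/80` of such an image. -/
theorem l1_near (hn : 2 ≤ n) {K S : Set (Fin n → ℝ)} (hK : IsConvexBody K) (hS : IsSimplex S)
    {μ : Measure (Fin n → ℝ)} [IsFiniteMeasure μ] (hμ : Integrable (fun v => ‖v‖) μ)
    (hU : Bornology.IsBounded {x | ∫ v, |x ⬝ᵥ v| ∂μ ≤ 1})
    {A : Matrix (Fin n) (Fin n) ℝ} (hA : A.det ≠ 0) {b : Fin n → ℝ}
    (hKU : K ⊆ (fun x => A *ᵥ x + b) '' {x | ∫ v, |x ⬝ᵥ v| ∂μ ≤ 1})
    (hvol : 79 / 80 * (volume ((fun x => A *ᵥ x + b) '' {x | ∫ v, |x ⬝ᵥ v| ∂μ ≤ 1})).toReal ≤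
      (volume K).toReal) :
    isoConst K < isoConst S := by
  refine near_of_bound (s := 80 / 79) (by omega) hK hS (ball_body hμ hU) hA hKU ?_
    (l1_body (by omega) hμ hU) ?_
  · have : (volume (aff A b '' {x | nrm μ x ≤ 1})).toReal =
        (volume ((fun x => A *ᵥ x + b) '' {x | ∫ v, |x ⬝ᵥ v| ∂μ ≤ 1})).toReal := rfl
    rw [this]
    linarith
  · have h := num_l1_near n hn
    have he0 : 0 < Real.exp 1 := Real.exp_pos 1
    have hpi : 0 < Real.pi := Real.pi_pos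
    have h1 : (2 * Real.exp 1 / (Real.pi ^ 2 * (((n : ℝ) + 1) * ((n : ℝ) + 2)))) ^ n =
        (2 * Real.exp 1) ^ n / ((Real.pi ^ 2) ^ n * (((n : ℝ) + 1) * ((n : ℝ) + 2)) ^ n) := by
      rw [div_pow, mul_pow (Real.pi ^ 2)]
    have hf : (0 : ℝ) < (n.factorial : ℝ) ^ 2 := by positivity
    rw [h1, FV.simpC]
    have hp : (0 : ℝ) < (((n : ℝ) + 1) * ((n : ℝ) + 2)) ^ n := by positivity
    have hq : (0 : ℝ) < (Real.pi ^ 2) ^ n := by positivity
    rw [← mul_div_assoc, ← mul_div_assoc, div_lt_div_iff₀ (by positivity) (by positivity)]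
    calc (80 / 79 : ℝ) ^ (n + 2) * ((n.factorial : ℝ) ^ 2 * (2 * Real.exp 1) ^ n) *
        (((n : ℝ) + 1) * (((n : ℝ) + 1) * ((n : ℝ) + 2)) ^ n) =
        ((80 / 79 : ℝ) ^ (n + 2) * (((n : ℝ) + 1) * (2 * Real.exp 1) ^ n)) *
          ((n.factorial : ℝ) ^ 2 * (((n : ℝ) + 1) * ((n : ℝ) + 2)) ^ n) := by ring
      _ < (Real.pi ^ 2) ^ n * ((n.factorial : ℝ) ^ 2 * (((n : ℝ) + 1) * ((n : ℝ) + 2)) ^ n) :=
          mul_lt_mul_of_pos_right h (by positivity)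
      _ = _ := by ring

end Vale.Agent.P254.L1
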