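import Vale.Agent.P254.L1.Defs

/-! Block A1: elementary properties of `nrm`. -/

open MeasureTheory Set
open scoped Matrix

namespace Vale.Agent.P254.L1

variable {n : ℕ}

theorem nrm_zero (μ : Measure (Fin n → ℝ)) : nrm μ 0 = 0 := by
  simp [nrm]

theorem nrm_neg (μ : Measure (Fin n → ℝ)) (x : Fin n → ℝ) : nrm μ (-x) = nrm μ x := by
  simp [nrm, neg_dotProduct]

theorem nrm_smul (μ : Measure (Fin n → ℝ)) (r : ℝ) (x : Fin n → ℝ) :
    nrm μ (r • x) = |r| * nrm μ x := by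
  simp only [nrm, smul_dotProduct, smul_eq_mul, abs_mul]
  rw [integral_const_mul]

theorem nrm_nonneg (μ : Measure (Fin n → ℝ)) (x : Fin n → ℝ) : 0 ≤ nrm μ x :=
  integral_nonneg fun _ => abs_nonneg _

/-- `|x · v| ≤ n ‖x‖ ‖v‖` -/
theorem nrm_dot_le (x v : Fin n → ℝ) : |x ⬝ᵥ v| ≤ (n : ℝ) * ‖x‖ * ‖v‖ := by
  calc |x ⬝ᵥ v| ≤ ∑ i : Fin n, |x i * v i| := Finset.abs_sum_le_sum_abs _ _
    _ ≤ ∑ _i : Fin n, ‖x‖ * ‖v‖ := by
        refine Finset.sum_le_sum fun i _ => ?_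
        rw [abs_mul]
        exact mul_le_mul (by simpa using norm_le_pi_norm x i) (by simpa using norm_le_pi_norm v i)
          (abs_nonneg _) (norm_nonneg _)
    _ = (n : ℝ) * ‖x‖ * ‖v‖ := by simp [mul_assoc]

theorem nrm_dot_continuous (x : Fin n → ℝ) : Continuous fun v : Fin n → ℝ => |x ⬝ᵥ v| := by
  unfold dotProduct
  fun_prop

theorem nrm_integrable {μ : Measure (Fin n → ℝ)} (hμ : Integrable (fun v => ‖v‖) μ)
    (x : Fin n → ℝ) : Integrable (fun v => |x ⬝ᵥ v|) μ := by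
  refine (hμ.const_mul ((n : ℝ) * ‖x‖)).mono' (nrm_dot_continuous x).aestronglyMeasurable
    (ae_of_all _ fun v => ?_)
  rw [Real.norm_eq_abs, abs_abs]
  exact nrm_dot_le x v

theorem nrm_add {μ : Measure (Fin n → ℝ)} (hμ : Integrable (fun v => ‖v‖) μ) (x y : Fin n → ℝ) :
    nrm μ (x + y) ≤ nrm μ x + nrm μ y := by
  unfold nrm
  rw [← integral_add (nrm_integrable hμ x) (nrm_integrable hμ y)]
  refine integral_mono (nrm_integrable hμ (x + y))
    ((nrm_integrable hμ x).add (nrm_integrable hμ y)) fun v => ?_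
  simp only [add_dotProduct]
  exact abs_add_le _ _

theorem nrm_le {μ : Measure (Fin n → ℝ)} (hμ : Integrable (fun v => ‖v‖) μ) :
    ∃ C, 0 ≤ C ∧ ∀ x, nrm μ x ≤ C * ‖x‖ := by
  refine ⟨(n : ℝ) * ∫ v, ‖v‖ ∂μ, mul_nonneg (Nat.cast_nonneg _)
    (integral_nonneg fun _ => norm_nonneg _), fun x => ?_⟩
  unfold nrm
  calc ∫ v, |x ⬝ᵥ v| ∂μ ≤ ∫ v, (n : ℝ) * ‖x‖ * ‖v‖ ∂μ :=
        integral_mono (nrm_integrable hμ x) (hμ.const_mul _) fun v => nrm_dot_le x v
    _ = (n : ℝ) * ‖x‖ * ∫ v, ‖v‖ ∂μ := integral_const_mul _ _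
    _ = _ := by ring

theorem nrm_sub_le {μ : Measure (Fin n → ℝ)} (hμ : Integrable (fun v => ‖v‖) μ)
    (x y : Fin n → ℝ) : |nrm μ x - nrm μ y| ≤ nrm μ (x - y) := by
  rw [abs_sub_le_iff]
  constructor
  · have := nrm_add hμ (x - y) y
    rw [sub_add_cancel] at this
    linarith
  · have := nrm_add hμ (y - x) x
    rw [sub_add_cancel] at this
    have h2 := nrm_neg μ (x - y)
    rw [neg_sub] at h2
    linarith

theorem nrm_continuous {μ : Measure (Fin n → ℝ)} (hμ : Integrable (fun v => ‖v‖) μ) :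
    Continuous (nrm μ) := by
  obtain ⟨C, hC0, hC⟩ := nrm_le hμ
  have hlip : LipschitzWith (Real.toNNReal C) (nrm μ) := by
    refine LipschitzWith.of_dist_le_mul fun x y => ?_
    rw [Real.dist_eq, dist_eq_norm, Real.coe_toNNReal C hC0]
    exact (nrm_sub_le hμ x y).trans (hC _)
  exact hlip.continuous

theorem nrm_pos {μ : Measure (Fin n → ℝ)}
    (hK : Bornology.IsBounded {x | nrm μ x ≤ 1}) {x : Fin n → ℝ} (hx : x ≠ 0) : 0 < nrm μ x := by
  rcases (nrm_nonneg μ x).lt_or_eq with h | h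
  · exact h
  · exfalso
    obtain ⟨R, hR⟩ := hK.exists_norm_le
    have hxn : 0 < ‖x‖ := norm_pos_iff.2 hx
    have h1 : ((|R| + 1) / ‖x‖) • x ∈ {x | nrm μ x ≤ 1} := by
      change nrm μ (((|R| + 1) / ‖x‖) • x) ≤ 1
      rw [nrm_smul, ← h, mul_zero]
      exact zero_le_one
    have h2 := hR _ h1
    rw [norm_smul, norm_div, norm_norm, div_mul_cancel₀ _ hxn.ne',
      Real.norm_of_nonneg (by positivity)] at h2
    linarith [le_abs_self R]

end Vale.Agent.P254.L1
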