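import Vale.Agent.P254.L1.A1

/-! P254, `L₁` balls, block A2: `∫ e^{-N} = n! |K|`. -/

open MeasureTheory Set
open scoped Matrix

namespace Vale.Agent.P254.L1

variable {n : ℕ}

theorem integral_exp_nrm {μ : Measure (Fin n → ℝ)} (hμ : Integrable (fun v => ‖v‖) μ)
    (hK : Bornology.IsBounded {x | nrm μ x ≤ 1}) :
    ∫ x, Real.exp (-nrm μ x) = n.factorial * (volume {x | nrm μ x ≤ 1}).toReal := by
  have h4 : ∀ {x}, nrm μ x = 0 → x = 0 := by
    intro x hx
    by_contra hne
    exact (nrm_pos hK hne).ne' hx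
  have h5 : ∀ (r : ℝ) (x : Fin n → ℝ), nrm μ (r • x) ≤ |r| * nrm μ x :=
    fun r x => (nrm_smul μ r x).le
  have hlt := MeasureTheory.measure_lt_one_eq_integral_div_gamma
    (volume : Measure (Fin n → ℝ)) (g := nrm μ) (nrm_zero μ) (nrm_neg μ) (nrm_add hμ)
    h4 h5 (p := 1) one_pos
  have hle : volume {x | nrm μ x ≤ 1} = volume {x : Fin n → ℝ | nrm μ x < 1} := by
    rcases Nat.eq_zero_or_pos n with h0 | h0
    · subst h0
      congr 1
      ext x
      have : x = 0 := Subsingleton.elim _ _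
      simp only [mem_ofPred_eq, this, nrm_zero]
      norm_num
    · have : Nonempty (Fin n) := ⟨⟨0, h0⟩⟩
      exact MeasureTheory.measure_le_eq_lt volume (g := nrm μ) (nrm_zero μ) (nrm_neg μ)
        (nrm_add hμ) h4 h5 1
  have hfin : Module.finrank ℝ (Fin n → ℝ) = n := Module.finrank_fin_fun ℝ
  rw [hle, hlt, hfin]
  have hG : Real.Gamma ((n : ℝ) / 1 + 1) = n.factorial := by
    rw [div_one]
    exact Real.Gamma_nat_eq_factorial n
  rw [hG, ENNReal.toReal_ofReal]
  · simp only [Real.rpow_one]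
    field_simp
  · exact div_nonneg (integral_nonneg fun x => (Real.exp_pos _).le) (Nat.cast_nonneg _)

end Vale.Agent.P254.L1
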