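import Vale.Agent.P254.L1.Defs

open MeasureTheory Set
open scoped Matrix Pointwise

namespace Vale.Agent.P254.L1

variable {n : ℕ}

lemma a3_abs_dot_le (x v : Fin n → ℝ) : |x ⬝ᵥ v| ≤ (n : ℝ) * ‖x‖ * ‖v‖ := by
  unfold dotProduct
  refine (Finset.abs_sum_le_sum_abs _ _).trans ?_
  refine (Finset.sum_le_sum (g := fun _ => ‖x‖ * ‖v‖) fun i _ => ?_).trans ?_
  · rw [abs_mul]
    exact mul_le_mul (norm_le_pi_norm x i) (norm_le_pi_norm v i) (abs_nonneg _) (norm_nonneg _)
  · simp [mul_assoc]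

lemma a3_cont_dot (x : Fin n → ℝ) : Continuous fun v : Fin n → ℝ => |x ⬝ᵥ v| := by
  unfold dotProduct
  fun_prop

lemma a3_int {μ : Measure (Fin n → ℝ)} (hμ : Integrable (fun v => ‖v‖) μ) (x : Fin n → ℝ) :
    Integrable (fun v => |x ⬝ᵥ v|) μ := by
  refine (hμ.const_mul ((n : ℝ) * ‖x‖)).mono' (a3_cont_dot x).aestronglyMeasurable ?_
  refine Filter.Eventually.of_forall fun v => ?_
  rw [Real.norm_eq_abs, abs_abs]
  exact a3_abs_dot_le x v

lemma a3_nonneg (μ : Measure (Fin n → ℝ)) (x : Fin n → ℝ) : 0 ≤ nrm μ x :=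
  integral_nonneg fun _ => abs_nonneg _

lemma a3_smul (μ : Measure (Fin n → ℝ)) (r : ℝ) (x : Fin n → ℝ) :
    nrm μ (r • x) = |r| * nrm μ x := by
  unfold nrm
  rw [← integral_const_mul]
  refine integral_congr_ae (Filter.Eventually.of_forall fun v => ?_)
  simp [smul_dotProduct, abs_mul]

lemma a3_sub_le {μ : Measure (Fin n → ℝ)} (hμ : Integrable (fun v => ‖v‖) μ) (x y : Fin n → ℝ) :
    nrm μ x - nrm μ y ≤ (n : ℝ) * (∫ v, ‖v‖ ∂μ) * ‖x - y‖ := by
  have h1 : nrm μ x - nrm μ y = ∫ v, (|x ⬝ᵥ v| - |y ⬝ᵥ v|) ∂μ :=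
    (integral_sub (a3_int hμ x) (a3_int hμ y)).symm
  rw [h1]
  have h2 : (n : ℝ) * (∫ v, ‖v‖ ∂μ) * ‖x - y‖ = ∫ v, (n : ℝ) * ‖x - y‖ * ‖v‖ ∂μ := by
    rw [integral_const_mul]; ring
  rw [h2]
  refine integral_mono ((a3_int hμ x).sub (a3_int hμ y)) (hμ.const_mul _) fun v => ?_
  have h3 : |x ⬝ᵥ v| - |y ⬝ᵥ v| ≤ |(x - y) ⬝ᵥ v| := by
    rw [sub_dotProduct]
    exact abs_sub_abs_le_abs_sub _ _
  exact h3.trans (a3_abs_dot_le _ _)

lemma a3_cont {μ : Measure (Fin n → ℝ)} (hμ : Integrable (fun v => ‖v‖) μ) :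
    Continuous (nrm μ) := by
  have hC : 0 ≤ (n : ℝ) * (∫ v, ‖v‖ ∂μ) :=
    mul_nonneg n.cast_nonneg (integral_nonneg fun _ => norm_nonneg _)
  refine (LipschitzWith.of_dist_le_mul (K := ⟨_, hC⟩) fun x y => ?_).continuous
  rw [Real.dist_eq, dist_eq_norm]
  refine abs_sub_le_iff.2 ⟨a3_sub_le hμ x y, ?_⟩
  rw [norm_sub_rev]
  exact a3_sub_le hμ y x

/-- general form: `(n+1) ∫_{N ≤ 1} N = n |{N ≤ 1}|` for a nonnegative continuous function homogeneous of degree one -/
theorem a3_general {N : (Fin n → ℝ) → ℝ} (hc : Continuous N) (h0 : ∀ x, 0 ≤ N x)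
    (hs : ∀ (r : ℝ) (x : Fin n → ℝ), 0 < r → N (r • x) = r * N x)
    (hK : Bornology.IsBounded {x | N x ≤ 1}) :
    ((n : ℝ) + 1) * ∫ x in {x | N x ≤ 1}, N x = n * (volume {x | N x ≤ 1}).toReal := by
  set K : Set (Fin n → ℝ) := {x | N x ≤ 1} with hKdef
  have hKm : MeasurableSet K := (isClosed_le hc continuous_const).measurableSet
  have hKf : volume K ≠ ⊤ := hK.measure_lt_top.ne
  haveI : IsFiniteMeasure (volume.restrict K) := ⟨by rw [Measure.restrict_apply_univ]; exact hK.measure_lt_top⟩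
  have hint : Integrable N (volume.restrict K) := by
    refine (integrable_const (1:ℝ)).mono' hc.aestronglyMeasurable ?_
    refine (ae_restrict_iff' hKm).2 (Filter.Eventually.of_forall fun x hx => ?_)
    rw [Real.norm_eq_abs, abs_of_nonneg (h0 x)]
    exact hx
  have hlev : ∀ t : ℝ, 0 < t → (volume {x | N x ≤ t}).toReal = t ^ n * (volume K).toReal := by
    intro t ht
    have he : {x | N x ≤ t} = t • K := by
      ext x
      rw [mem_smul_set_iff_inv_smul_mem₀ ht.ne']
      simp only [mem_setOf_eq, hKdef]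
      rw [hs _ _ (inv_pos.2 ht), inv_mul_le_iff₀ ht, mul_one]
    rw [he, Measure.addHaar_smul, ENNReal.toReal_mul, ENNReal.toReal_ofReal (abs_nonneg _)]
    simp [abs_of_pos ht]
  have hrep := Integrable.integral_eq_integral_meas_lt hint (Filter.Eventually.of_forall h0)
  have hm : ∀ t ∈ Ioi (0:ℝ), ((volume.restrict K).real {a | t < N a}) =
      (Ioc (0:ℝ) 1).indicator (fun t => (volume K).toReal * (1 - t ^ n)) t := by
    intro t ht
    have ht : 0 < t := ht
    have hmt : MeasurableSet {a | t < N a} := (isOpen_lt continuous_const hc).measurableSet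
    rw [measureReal_def, Measure.restrict_apply hmt]
    by_cases h1 : t ≤ 1
    · rw [indicator_of_mem (show t ∈ Ioc (0:ℝ) 1 from ⟨ht, h1⟩)]
      have he : {a | t < N a} ∩ K = K \ {x | N x ≤ t} := by
        ext x
        simp only [mem_inter_iff, mem_setOf_eq, mem_diff, not_le]
        tauto
      have hsub : {x | N x ≤ t} ⊆ K := fun x hx => le_trans hx h1
      have hmt' : MeasurableSet {x | N x ≤ t} := (isClosed_le hc continuous_const).measurableSet
      rw [he, measure_diff hsub hmt'.nullMeasurableSet (measure_ne_top_of_subset hsub hKf),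
        ENNReal.toReal_sub_of_le (measure_mono hsub) hKf, hlev t ht]
      ring
    · rw [indicator_of_notMem (fun h => h1 h.2)]
      have he : {a | t < N a} ∩ K = ∅ := by
        ext x
        simp only [mem_inter_iff, mem_setOf_eq, mem_empty_iff_false, iff_false, hKdef, not_and, not_le]
        intro h
        linarith [not_le.1 h1]
      rw [he]; simp
  rw [hrep, setIntegral_congr_fun measurableSet_Ioi hm, setIntegral_indicator measurableSet_Ioc]
  have he : Ioi (0:ℝ) ∩ Ioc 0 1 = Ioc 0 1 := by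
    ext t; simp only [mem_inter_iff, mem_Ioi, mem_Ioc]; tauto
  rw [he, ← intervalIntegral.integral_of_le zero_le_one, intervalIntegral.integral_const_mul,
    intervalIntegral.integral_sub (by simp) (intervalIntegral.intervalIntegrable_pow n)]
  simp only [intervalIntegral.integral_const, sub_zero, smul_eq_mul, mul_one, integral_pow, one_pow]
  have hn : ((n : ℝ) + 1) ≠ 0 := by positivity
  rw [zero_pow (Nat.succ_ne_zero n)]
  field_simp
  ring

/-- A3: `∫_K N = n/(n+1) |K|` -/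
theorem setIntegral_nrm {μ : Measure (Fin n → ℝ)} (hμ : Integrable (fun v => ‖v‖) μ)
    (hK : Bornology.IsBounded {x | nrm μ x ≤ 1}) :
    ((n : ℝ) + 1) * ∫ x in {x | nrm μ x ≤ 1}, nrm μ x =
      n * (volume {x | nrm μ x ≤ 1}).toReal :=
  a3_general (a3_cont hμ) (a3_nonneg μ)
    (fun r x hr => by rw [a3_smul, abs_of_pos hr]) hK

end Vale.Agent.P254.L1
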