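import Vale.Agent.P254.L1.Defs
import Vale.Agent.P254.Unc.Ber

/-! P254, block B: a sharp inequality between the first two absolute moments of a linear
functional on a symmetric convex body. -/

open MeasureTheory Set
open scoped Matrix

namespace Vale.Agent.P254.L1

namespace B

variable {n : ℕ}

/-- the functional `x ↦ x ⬝ᵥ v` as a linear map -/
noncomputable def fn (v : Fin n → ℝ) : (Fin n → ℝ) →ₗ[ℝ] ℝ where
  toFun x := x ⬝ᵥ v
  map_add' x y := add_dotProduct x y v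
  map_smul' r x := smul_dotProduct r x v

theorem fn_apply (v x : Fin n → ℝ) : fn v x = x ⬝ᵥ v := rfl

theorem continuous_dot (v : Fin n → ℝ) : Continuous fun x : Fin n → ℝ => x ⬝ᵥ v := by
  unfold dotProduct
  fun_prop

/-- the linear map replacing coordinate `k` by `x ⬝ᵥ v` -/
noncomputable def chg (v : Fin n → ℝ) (k : Fin n) : (Fin n → ℝ) →ₗ[ℝ] (Fin n → ℝ) :=
  LinearMap.pi fun i => if i = k then fn v else LinearMap.proj i

theorem chg_same (v : Fin n → ℝ) (k : Fin n) (x : Fin n → ℝ) : chg v k x k = x ⬝ᵥ v := by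
  simp [chg, fn]

theorem chg_ne (v : Fin n → ℝ) {k i : Fin n} (h : i ≠ k) (x : Fin n → ℝ) :
    chg v k x i = x i := by
  simp [chg, h]

theorem chg_injective {v : Fin n → ℝ} {k : Fin n} (hv : v k ≠ 0) :
    Function.Injective (chg v k) := by
  rw [← LinearMap.ker_eq_bot, LinearMap.ker_eq_bot']
  intro x hx
  have h1 : ∀ i, i ≠ k → x i = 0 := fun i hi => by
    rw [← chg_ne v hi x, hx]; rfl
  have h2 : x ⬝ᵥ v = 0 := by
    rw [← chg_same v k x, hx]; rfl
  have h3 : x ⬝ᵥ v = x k * v k := by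
    unfold dotProduct
    exact Finset.sum_eq_single k (fun i _ hi => by rw [h1 i hi, zero_mul]) (by simp)
  have h4 : x k = 0 := by
    rw [h3] at h2
    exact (mul_eq_zero.1 h2).resolve_right hv
  funext i
  by_cases hi : i = k
  · rw [hi, h4]; rfl
  · exact h1 i hi

theorem chg_det {v : Fin n → ℝ} {k : Fin n} (hv : v k ≠ 0) :
    LinearMap.det (chg v k) ≠ 0 := by
  intro h
  have := LinearMap.bot_lt_ker_of_det_eq_zero h
  rw [LinearMap.ker_eq_bot.2 (chg_injective hv)] at this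
  exact lt_irrefl _ this

theorem image_integral {L : (Fin n → ℝ) →ₗ[ℝ] (Fin n → ℝ)}
    (hi : Function.Injective L) {S : Set (Fin n → ℝ)} (hS : MeasurableSet S)
    (g : (Fin n → ℝ) → ℝ) :
    ∫ x in L '' S, g x = |LinearMap.det L| * ∫ x in S, g (L x) := by
  have h := integral_image_eq_integral_abs_det_fderiv_smul volume hS
    (f := L) (f' := fun _ => LinearMap.toContinuousLinearMap L)
    (fun x _ => (LinearMap.toContinuousLinearMap L).hasFDerivAt.hasFDerivWithinAt)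
    hi.injOn g
  rw [h]
  simp only [smul_eq_mul]
  rw [integral_const_mul]
  rfl

theorem hyperplane_null {v : Fin n → ℝ} (hv : v ≠ 0) :
    volume {x : Fin n → ℝ | x ⬝ᵥ v = 0} = 0 := by
  have h : {x : Fin n → ℝ | x ⬝ᵥ v = 0} = (LinearMap.ker (fn v) : Set (Fin n → ℝ)) := by
    ext x; simp [fn]
  rw [h]
  apply Measure.addHaar_submodule
  intro htop
  apply hv
  have h1 : v ⬝ᵥ v = 0 := by
    have : v ∈ LinearMap.ker (fn v) := by rw [htop]; trivial
    simpa [fn] using this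
  exact dotProduct_self_eq_zero.1 h1

theorem half {v : Fin n → ℝ} (hv : v ≠ 0) {K : Set (Fin n → ℝ)} (hK : IsCompact K)
    (hs : ∀ x ∈ K, -x ∈ K) {g : (Fin n → ℝ) → ℝ} (hg : Continuous g)
    (he : ∀ x, g (-x) = g x) :
    ∫ x in K, g x = 2 * ∫ x in K ∩ {x | 0 ≤ x ⬝ᵥ v}, g x := by
  have hd := continuous_dot v
  have hm1 : MeasurableSet {x : Fin n → ℝ | 0 ≤ x ⬝ᵥ v} :=
    measurableSet_le measurable_const hd.measurable
  have hgi : IntegrableOn g K := hg.continuousOn.integrableOn_compact hK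
  have h1 : ∫ x in K, g x = (∫ x in K ∩ {x | 0 ≤ x ⬝ᵥ v}, g x) +
      ∫ x in K ∩ {x | 0 ≤ x ⬝ᵥ v}ᶜ, g x := by
    rw [← setIntegral_union (Set.disjoint_left.2 fun x hx hy => hy.2 hx.2)
      (hK.measurableSet.inter hm1.compl) (hgi.mono_set inter_subset_left)
      (hgi.mono_set inter_subset_left), Set.inter_union_compl]
  have h2 : ∫ x in K ∩ {x | 0 ≤ x ⬝ᵥ v}ᶜ, g x = ∫ x in K ∩ {x | 0 < x ⬝ᵥ v}, g x := by
    have hp := (Measure.measurePreserving_neg (volume : Measure (Fin n → ℝ)))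
    have h3 := hp.setIntegral_preimage_emb (MeasurableEquiv.neg _).measurableEmbedding g
      (K ∩ {x | 0 < x ⬝ᵥ v})
    rw [← h3]
    have h4 : Neg.neg ⁻¹' (K ∩ {x : Fin n → ℝ | 0 < x ⬝ᵥ v}) = K ∩ {x | 0 ≤ x ⬝ᵥ v}ᶜ := by
      ext x
      simp only [mem_preimage, mem_inter_iff, mem_ofPred_eq, mem_compl_iff, neg_dotProduct,
        not_le, Left.neg_pos_iff]
      constructor
      · rintro ⟨a, b⟩
        exact ⟨by simpa using hs _ a, b⟩
      · rintro ⟨a, b⟩
        exact ⟨hs _ a, b⟩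
    rw [h4]
    simp only [he]
  have h5 : ∫ x in K ∩ {x | 0 < x ⬝ᵥ v}, g x = ∫ x in K ∩ {x | 0 ≤ x ⬝ᵥ v}, g x := by
    apply setIntegral_congr_set
    have h0 := hyperplane_null hv
    have hae : ∀ᵐ x ∂(volume : Measure (Fin n → ℝ)), x ⬝ᵥ v ≠ 0 := by
      rw [ae_iff]; simpa using h0
    filter_upwards [hae] with x hx
    apply propext
    constructor
    · rintro ⟨a, b⟩
      have b' : 0 < x ⬝ᵥ v := b
      exact ⟨a, b'.le⟩
    · rintro ⟨a, b⟩
      have b' : 0 ≤ x ⬝ᵥ v := b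
      exact ⟨a, lt_of_le_of_ne b' (Ne.symm hx)⟩
  rw [h1, h2, h5]; ring

end B

open B in
/-- Berwald's inequality for an even convex body and a linear functional. -/
theorem berwald_even {n : ℕ} (hn : 1 ≤ n) {K : Set (Fin n → ℝ)} (hc : Convex ℝ K)
    (hK : IsCompact K) (hs : ∀ x ∈ K, -x ∈ K) (v : Fin n → ℝ) :
    ((n : ℝ) + 2) * ((volume K).toReal * ∫ x in K, (x ⬝ᵥ v) ^ 2) ≤
      2 * ((n : ℝ) + 1) * (∫ x in K, |x ⬝ᵥ v|) ^ 2 := by
  by_cases hv : v = 0
  · subst hv; simp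
  obtain ⟨k, hk⟩ : ∃ k, v k ≠ 0 := by
    by_contra h
    push Not at h
    exact hv (funext h)
  have hd := continuous_dot v
  set P := K ∩ {x : Fin n → ℝ | 0 ≤ x ⬝ᵥ v} with hP
  have hPc : IsCompact P := hK.inter_right (isClosed_le continuous_const hd)
  have hPv : Convex ℝ P := by
    apply hc.inter
    have := (convex_Ici (𝕜 := ℝ) (0 : ℝ)).linear_preimage (fn v)
    exact this
  set L := chg v k with hL
  have hdet := chg_det hk
  have hinj := chg_injective hk
  have hLc : Continuous L := LinearMap.continuous_of_finiteDimensional L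
  have hb := Unc.berwald (hPv.linear_image L) (hPc.image hLc) k (by
    rintro _ ⟨x, hx, rfl⟩
    rw [chg_same]
    exact hx.2)
  have e2 : ∫ x in L '' P, x k ^ 2 = |LinearMap.det L| * ∫ x in P, (x ⬝ᵥ v) ^ 2 := by
    rw [image_integral hinj hPc.measurableSet]
    simp only [hL, chg_same]
  have e1 : ∫ x in L '' P, x k = |LinearMap.det L| * ∫ x in P, x ⬝ᵥ v := by
    rw [image_integral hinj hPc.measurableSet]
    simp only [hL, chg_same]
  have e0 : (volume (L '' P)).toReal = |LinearMap.det L| * (volume P).toReal := by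
    rw [Measure.addHaar_image_linearMap, ENNReal.toReal_mul, ENNReal.toReal_ofReal (abs_nonneg _)]
  have f1 : ∫ x in P, x ⬝ᵥ v = ∫ x in P, |x ⬝ᵥ v| :=
    setIntegral_congr_fun hPc.measurableSet fun x hx => (abs_of_nonneg hx.2).symm
  have g0 : (volume K).toReal = 2 * (volume P).toReal := by
    have h := half hv hK hs (g := fun _ => (1 : ℝ)) continuous_const (fun _ => rfl)
    simpa [Measure.real, hP] using h
  have g1 : ∫ x in K, |x ⬝ᵥ v| = 2 * ∫ x in P, |x ⬝ᵥ v| :=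
    half hv hK hs hd.abs (fun x => by simp [neg_dotProduct])
  have g2 : ∫ x in K, (x ⬝ᵥ v) ^ 2 = 2 * ∫ x in P, (x ⬝ᵥ v) ^ 2 :=
    half hv hK hs (hd.pow 2) (fun x => by simp [neg_dotProduct])
  rw [e0, e1, e2, f1] at hb
  rw [g0, g1, g2]
  have hD : 0 < |LinearMap.det L| := abs_pos.2 hdet
  set D := |LinearMap.det L|
  set V := (volume P).toReal
  set M1 := ∫ x in P, |x ⬝ᵥ v|
  set M2 := ∫ x in P, (x ⬝ᵥ v) ^ 2
  have hn2 : (0 : ℝ) < (n : ℝ) + 2 := by positivity
  have h5 : V * M2 ≤ 2 * ((n : ℝ) + 1) / (n + 2) * M1 ^ 2 := by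
    have h6 : D ^ 2 * (V * M2) ≤ D ^ 2 * (2 * ((n : ℝ) + 1) / (n + 2) * M1 ^ 2) := by
      calc D ^ 2 * (V * M2) = D * V * (D * M2) := by ring
        _ ≤ _ := hb
        _ = _ := by ring
    exact le_of_mul_le_mul_left h6 (by positivity)
  have h7 : ((n : ℝ) + 2) * (V * M2) ≤ 2 * ((n : ℝ) + 1) * M1 ^ 2 := by
    calc ((n : ℝ) + 2) * (V * M2) ≤ ((n : ℝ) + 2) * (2 * ((n : ℝ) + 1) / (n + 2) * M1 ^ 2) := by
          gcongr
      _ = _ := by field_simp
  nlinarith [h7]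

end Vale.Agent.P254.L1
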