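import Vale.Agent.P254.L1.Defs

/-! P254/L1, block C: Gaussian integrals on `Fin n → ℝ`. -/

open MeasureTheory Set
open scoped Matrix

namespace Vale.Agent.P254.L1

variable {n : ℕ}

lemma g1_zero : ∫ t : ℝ, Real.exp (-(t * t) / 2) = Real.sqrt (2 * Real.pi) := by
  have h := integral_gaussian (1 / 2)
  rw [show (Real.pi / (1 / 2) : ℝ) = 2 * Real.pi by ring] at h
  rw [← h]
  congr 1
  funext t
  congr 1
  ring

lemma g1_abs : ∫ t : ℝ, |t| * Real.exp (-(t * t) / 2) = 2 := by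
  have e1 : (fun x : ℝ => |x| * Real.exp (-(x * x) / 2))
      = fun x : ℝ => (fun y : ℝ => y * Real.exp (-(y * y) / 2)) |x| := by
    funext x; simp [abs_mul_abs_self]
  rw [e1, integral_comp_abs (f := fun y : ℝ => y * Real.exp (-(y * y) / 2))]
  have e2 : ∫ x in Ioi (0:ℝ), x * Real.exp (-(x * x) / 2) = 1 := by
    have := integral_rpow_mul_exp_neg_mul_rpow (p := 2) (q := 1) (b := 1/2) (by norm_num)
      (by norm_num) (by norm_num)
    have e3 : (∫ x in Ioi (0:ℝ), x ^ (1:ℝ) * Real.exp (-(1/2) * x ^ (2:ℝ)))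
        = ∫ x in Ioi (0:ℝ), x * Real.exp (-(x * x) / 2) := by
      refine setIntegral_congr_fun measurableSet_Ioi ?_
      intro x hx
      simp only [Real.rpow_one]
      congr 2
      rw [show (2:ℝ) = ((2:ℕ):ℝ) by norm_num, Real.rpow_natCast]
      norm_num; ring
    rw [e3] at this
    rw [this]
    norm_num
  rw [e2]; norm_num

lemma g1_sq : ∫ t : ℝ, t * t * Real.exp (-(t * t) / 2) = Real.sqrt (2 * Real.pi) := by
  have e1 : (fun x : ℝ => x * x * Real.exp (-(x * x) / 2))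
      = fun x : ℝ => (fun y : ℝ => y * y * Real.exp (-(y * y) / 2)) |x| := by
    funext x; simp [abs_mul_abs_self]
  rw [e1, integral_comp_abs (f := fun y : ℝ => y * y * Real.exp (-(y * y) / 2))]
  have e2 : ∫ x in Ioi (0:ℝ), x * x * Real.exp (-(x * x) / 2) = Real.sqrt (2 * Real.pi) / 2 := by
    have := integral_rpow_mul_exp_neg_mul_rpow (p := 2) (q := 2) (b := 1/2) (by norm_num)
      (by norm_num) (by norm_num)
    have e3 : (∫ x in Ioi (0:ℝ), x ^ (2:ℝ) * Real.exp (-(1/2) * x ^ (2:ℝ)))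
        = ∫ x in Ioi (0:ℝ), x * x * Real.exp (-(x * x) / 2) := by
      refine setIntegral_congr_fun measurableSet_Ioi ?_
      intro x hx
      simp only
      rw [show (2:ℝ) = ((2:ℕ):ℝ) by norm_num, Real.rpow_natCast]
      congr 1
      · ring
      · congr 1; norm_num; ring
    rw [e3] at this
    rw [this]
    have hG : Real.Gamma ((2 + 1) / 2) = Real.sqrt Real.pi / 2 := by
      rw [show ((2:ℝ) + 1) / 2 = 1 / 2 + 1 by norm_num, Real.Gamma_add_one (by norm_num),
        Real.Gamma_one_half_eq]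
      ring
    rw [hG]
    have h3 : ((1:ℝ) / 2) ^ (-((2:ℝ) + 1) / 2) = 2 * Real.sqrt 2 := by
      rw [show (-((2:ℝ) + 1) / 2) = -(1 + 1 / 2) by norm_num,
        Real.rpow_neg (by norm_num), Real.rpow_add (by norm_num), Real.rpow_one,
        ← Real.sqrt_eq_rpow, Real.sqrt_div (by norm_num), Real.sqrt_one]
      have : (0:ℝ) < Real.sqrt 2 := by positivity
      field_simp
    rw [h3, Real.sqrt_mul (by norm_num)]
    ring
  rw [e2]; ring

lemma exp_prod (y : Fin n → ℝ) :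
    Real.exp (-(y ⬝ᵥ y) / 2) = ∏ i, Real.exp (-(y i * y i) / 2) := by
  rw [← Real.exp_sum]
  congr 1
  simp only [dotProduct, ← Finset.sum_div, Finset.sum_neg_distrib]

theorem gauss_one : ∫ y : Fin n → ℝ, Real.exp (-(y ⬝ᵥ y) / 2) = Real.sqrt (2 * Real.pi) ^ n := by
  simp_rw [exp_prod]
  rw [integral_fintype_prod_volume_eq_prod (fun _ (t : ℝ) => Real.exp (-(t * t) / 2))]
  simp [g1_zero]

lemma exp_coord (g : ℝ → ℝ) (i : Fin n) (y : Fin n → ℝ) :
    g (y i) * Real.exp (-(y ⬝ᵥ y) / 2) =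
      ∏ j, (if j = i then g (y j) else 1) * Real.exp (-(y j * y j) / 2) := by
  rw [Finset.prod_mul_distrib, ← exp_prod]
  congr 1
  rw [Finset.prod_ite_eq' Finset.univ i (fun j => g (y j))]
  simp

lemma int_coord (g : ℝ → ℝ) (i : Fin n) :
    ∫ y : Fin n → ℝ, g (y i) * Real.exp (-(y ⬝ᵥ y) / 2) =
      (∫ t : ℝ, g t * Real.exp (-(t * t) / 2)) * Real.sqrt (2 * Real.pi) ^ (n - 1) := by
  simp_rw [exp_coord g i]
  rw [integral_fintype_prod_volume_eq_prod
    (fun j (t : ℝ) => (if j = i then g t else 1) * Real.exp (-(t * t) / 2))]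
  rw [← Finset.mul_prod_erase Finset.univ _ (Finset.mem_univ i)]
  congr 1
  · simp
  · rw [Finset.prod_congr rfl (g := fun _ => Real.sqrt (2 * Real.pi))]
    · simp [Finset.prod_const, Finset.card_erase_of_mem]
    · intro j hj
      simp only [Finset.mem_erase] at hj
      simp [hj.1, g1_zero]

lemma integrable_coord (g : ℝ → ℝ) (hg : Integrable (fun t => g t * Real.exp (-(t * t) / 2)))
    (i : Fin n) : Integrable (fun y : Fin n → ℝ => g (y i) * Real.exp (-(y ⬝ᵥ y) / 2)) := by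
  simp_rw [exp_coord g i]
  refine Integrable.fintype_prod
    (f := fun j (t : ℝ) => (if j = i then g t else 1) * Real.exp (-(t * t) / 2)) ?_
  intro j
  by_cases hj : j = i
  · simpa [hj] using hg
  · simp only [hj, if_false, one_mul]
    have := integrable_exp_neg_mul_sq (b := 1 / 2) (by norm_num)
    refine this.congr (Filter.Eventually.of_forall fun t => ?_)
    simp only
    congr 1; ring

theorem gauss_sq : ∫ y : Fin n → ℝ, (y ⬝ᵥ y) * Real.exp (-(y ⬝ᵥ y) / 2) =
    n * Real.sqrt (2 * Real.pi) ^ n := by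
  have hi : ∀ i : Fin n, Integrable (fun y : Fin n → ℝ =>
      (fun t : ℝ => t * t) (y i) * Real.exp (-(y ⬝ᵥ y) / 2)) := by
    intro i
    refine integrable_coord (fun t => t * t) ?_ i
    by_contra h
    have := integral_undef h
    rw [g1_sq] at this
    have h2 : (0:ℝ) < Real.sqrt (2 * Real.pi) := by positivity
    linarith
  have h1 : ∀ y : Fin n → ℝ, (y ⬝ᵥ y) * Real.exp (-(y ⬝ᵥ y) / 2) =
      ∑ i, (fun t : ℝ => t * t) (y i) * Real.exp (-(y ⬝ᵥ y) / 2) := by
    intro y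
    rw [← Finset.sum_mul]
    rfl
  simp_rw [h1]
  rw [integral_finsetSum _ (fun i _ => hi i)]
  simp_rw [int_coord (fun t => t * t)]
  simp only [g1_sq, Finset.sum_const, Finset.card_univ, Fintype.card_fin, nsmul_eq_mul]
  rcases n with _ | m
  · simp
  · simp only [Nat.add_sub_cancel]
    rw [pow_succ]
    ring

lemma abs_euclid (w : EuclideanSpace ℝ (Fin n)) (i : Fin n) :
    ∫ y : EuclideanSpace ℝ (Fin n), |inner ℝ w y| * Real.exp (-‖y‖ ^ 2 / 2) =
      ‖w‖ * ∫ y : EuclideanSpace ℝ (Fin n), |y i| * Real.exp (-‖y‖ ^ 2 / 2) := by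
  set u : EuclideanSpace ℝ (Fin n) := ‖w‖ • EuclideanSpace.single i (1 : ℝ) with hu
  have hn : ‖w‖ = ‖u‖ := by
    rw [hu, norm_smul]; simp
  set R := (ℝ ∙ (w - u))ᗮ.reflection with hR
  have hRw : R w = u := Submodule.reflection_sub hn
  have hmp : MeasurePreserving R volume volume := R.measurePreserving
  rw [← hmp.integral_comp R.toHomeomorph.measurableEmbedding, ← integral_const_mul]
  refine integral_congr_ae (Filter.Eventually.of_forall fun y => ?_)
  simp only [LinearIsometryEquiv.norm_map]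
  have h1 : inner ℝ w (R y) = ‖w‖ * y i := by
    have h2 : inner ℝ w (R y) = inner ℝ (R w) (R (R y)) := (R.inner_map_map _ _).symm
    rw [h2, hRw, hR, Submodule.reflection_reflection, hu, inner_smul_left]
    simp [EuclideanSpace.inner_single_left]
  rw [h1, abs_mul, abs_norm, mul_assoc]

lemma to_euclid (f : (Fin n → ℝ) → ℝ) :
    ∫ y : Fin n → ℝ, f y = ∫ y : EuclideanSpace ℝ (Fin n), f (WithLp.ofLp y) :=
  ((PiLp.volume_preserving_ofLp (Fin n)).integral_comp
    (MeasurableEquiv.toLp 2 (Fin n → ℝ)).symm.measurableEmbedding f).symm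

theorem gauss_abs (w : Fin n → ℝ) : ∫ y : Fin n → ℝ, |w ⬝ᵥ y| * Real.exp (-(y ⬝ᵥ y) / 2) =
    Real.sqrt (2 / Real.pi) * Real.sqrt (w ⬝ᵥ w) * Real.sqrt (2 * Real.pi) ^ n := by
  rcases n with _ | m
  · simp
  have hnorm : ∀ z : EuclideanSpace ℝ (Fin (m + 1)), ‖z‖ ^ 2 = z.ofLp ⬝ᵥ z.ofLp := by
    intro z
    rw [EuclideanSpace.norm_sq_eq]
    simp [dotProduct, sq]
  have h1 : ∫ y : Fin (m + 1) → ℝ, |w ⬝ᵥ y| * Real.exp (-(y ⬝ᵥ y) / 2) =
      ∫ y : EuclideanSpace ℝ (Fin (m + 1)),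
        |inner ℝ (WithLp.toLp 2 w : EuclideanSpace ℝ (Fin (m + 1))) y| *
          Real.exp (-‖y‖ ^ 2 / 2) := by
    rw [to_euclid]
    refine integral_congr_ae (Filter.Eventually.of_forall fun y => ?_)
    simp only [hnorm]
    congr 2
    rw [PiLp.inner_apply]
    simp [dotProduct, mul_comm]
  have h2 : ∫ y : EuclideanSpace ℝ (Fin (m + 1)), |y 0| * Real.exp (-‖y‖ ^ 2 / 2) =
      2 * Real.sqrt (2 * Real.pi) ^ m := by
    have h3 := int_coord (n := m + 1) (fun t => |t|) 0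
    rw [g1_abs, Nat.add_sub_cancel] at h3
    rw [← h3, to_euclid]
    refine integral_congr_ae (Filter.Eventually.of_forall fun y => ?_)
    simp only [hnorm]
  have h4 : ‖(WithLp.toLp 2 w : EuclideanSpace ℝ (Fin (m + 1)))‖ = Real.sqrt (w ⬝ᵥ w) := by
    rw [← hnorm, Real.sqrt_sq (norm_nonneg _)]
  have h5 : Real.sqrt (2 / Real.pi) * Real.sqrt (2 * Real.pi) = 2 := by
    rw [← Real.sqrt_mul (by positivity)]
    rw [show (2 / Real.pi * (2 * Real.pi) : ℝ) = 2 ^ 2 by
      have := Real.pi_pos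
      field_simp]
    exact Real.sqrt_sq (by norm_num)
  rw [h1, abs_euclid _ 0, h2, h4, pow_succ]
  calc Real.sqrt (w ⬝ᵥ w) * (2 * Real.sqrt (2 * Real.pi) ^ m)
      = Real.sqrt (w ⬝ᵥ w) * ((Real.sqrt (2 / Real.pi) * Real.sqrt (2 * Real.pi)) *
          Real.sqrt (2 * Real.pi) ^ m) := by rw [h5]
    _ = _ := by ring

end Vale.Agent.P254.L1
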