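import Vale.Agent.P254.L1.A1
import Vale.Agent.P254.L1.A2
import Vale.Agent.P254.L1.C

/-! P254, `L₁` balls, block D: Jensen's inequality. -/

open MeasureTheory Set
open scoped Matrix

namespace Vale.Agent.P254.L1

variable {n : ℕ}

theorem integral_lin (M : Matrix (Fin n) (Fin n) ℝ) (hM : M.det ≠ 0) (g : (Fin n → ℝ) → ℝ) :
    ∫ x, g x = |M.det| * ∫ y, g (M *ᵥ y) := by
  have hinj : Function.Injective fun y : Fin n → ℝ => M *ᵥ y :=
    Matrix.mulVec_injective_iff_isUnit.2 ((Matrix.isUnit_iff_isUnit_det _).2 (isUnit_iff_ne_zero.2 hM))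
  have hder : ∀ x : Fin n → ℝ, HasFDerivAt (fun y : Fin n → ℝ => M *ᵥ y)
      (LinearMap.toContinuousLinearMap (Matrix.toLin' M)) x := by
    intro x
    have h := (LinearMap.toContinuousLinearMap (Matrix.toLin' M)).hasFDerivAt (x := x)
    refine h.congr_of_eventuallyEq (Filter.Eventually.of_forall fun y => ?_)
    simp
  have h := integral_image_eq_integral_abs_det_fderiv_smul (volume : Measure (Fin n → ℝ))
    (s := univ) MeasurableSet.univ
    (f' := fun _ => LinearMap.toContinuousLinearMap (Matrix.toLin' M))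
    (fun x _ => (hder x).hasFDerivWithinAt) hinj.injOn g
  have hsurj : Function.Surjective fun y : Fin n → ℝ => M *ᵥ y :=
    Matrix.mulVec_surjective_iff_isUnit.2 ((Matrix.isUnit_iff_isUnit_det _).2 (isUnit_iff_ne_zero.2 hM))
  rw [image_univ, hsurj.range_eq, setIntegral_univ, setIntegral_univ] at h
  rw [h]
  have hdet : (LinearMap.toContinuousLinearMap (Matrix.toLin' M)).det = M.det := by
    rw [ContinuousLinearMap.det]
    simp
  simp only [hdet, smul_eq_mul]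
  rw [integral_const_mul]

theorem dot_self_nonneg (y : Fin n → ℝ) : 0 ≤ y ⬝ᵥ y :=
  Finset.sum_nonneg fun _ _ => mul_self_nonneg _

theorem integrable_gauss {b : ℝ} (hb : 0 < b) :
    Integrable fun y : Fin n → ℝ => Real.exp (-b * (y ⬝ᵥ y)) := by
  have h : (fun y : Fin n → ℝ => Real.exp (-b * (y ⬝ᵥ y))) =
      fun y : Fin n → ℝ => ∏ i, (fun t : ℝ => Real.exp (-b * t ^ 2)) (y i) := by
    ext y
    rw [← Real.exp_sum]
    congr 1
    simp only [dotProduct, Finset.mul_sum]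
    exact Finset.sum_congr rfl fun i _ => by ring
  rw [h]
  exact Integrable.fintype_prod fun _ => integrable_exp_neg_mul_sq hb

theorem norm_sq_le (y : Fin n → ℝ) : ‖y‖ ^ 2 ≤ y ⬝ᵥ y := by
  have h : ‖y‖ ≤ Real.sqrt (y ⬝ᵥ y) := by
    rw [pi_norm_le_iff_of_nonneg (Real.sqrt_nonneg _)]
    intro i
    rw [Real.norm_eq_abs]
    apply Real.abs_le_sqrt
    rw [sq]
    exact Finset.single_le_sum (f := fun i => y i * y i) (fun j _ => mul_self_nonneg _)
      (Finset.mem_univ i)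
  calc ‖y‖ ^ 2 ≤ (Real.sqrt (y ⬝ᵥ y)) ^ 2 := pow_le_pow_left₀ (norm_nonneg _) h 2
    _ = y ⬝ᵥ y := Real.sq_sqrt (dot_self_nonneg y)

theorem integrable_poly_gauss :
    Integrable fun y : Fin n → ℝ => (1 + y ⬝ᵥ y) * Real.exp (-(y ⬝ᵥ y) / 2) := by
  have h1 := (integrable_gauss (n := n) (b := 1 / 4) (by norm_num)).const_mul 4
  refine h1.mono' (by fun_prop) (Filter.Eventually.of_forall fun y => ?_)
  have h0 := dot_self_nonneg y
  set t := y ⬝ᵥ y
  rw [Real.norm_eq_abs, abs_of_nonneg (by positivity)]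
  have h2 : 1 + t ≤ 4 * Real.exp (t / 4) := by
    have := Real.add_one_le_exp (t / 4)
    linarith
  calc (1 + t) * Real.exp (-t / 2) ≤ 4 * Real.exp (t / 4) * Real.exp (-t / 2) :=
        mul_le_mul_of_nonneg_right h2 (Real.exp_pos _).le
    _ = 4 * Real.exp (-(1 / 4) * t) := by
        rw [mul_assoc, ← Real.exp_add]
        congr 2
        ring

theorem abs_dot_le (x v : Fin n → ℝ) : |x ⬝ᵥ v| ≤ n * ‖x‖ * ‖v‖ := by
  calc |x ⬝ᵥ v| ≤ ∑ i, |x i * v i| := Finset.abs_sum_le_sum_abs _ _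
    _ ≤ ∑ _i : Fin n, ‖x‖ * ‖v‖ := by
        refine Finset.sum_le_sum fun i _ => ?_
        rw [abs_mul]
        exact mul_le_mul (norm_le_pi_norm x i) (norm_le_pi_norm v i) (abs_nonneg _) (norm_nonneg _)
    _ = n * ‖x‖ * ‖v‖ := by simp; ring

theorem integrable_pow_norm_gauss :
    Integrable fun y : Fin n → ℝ => ‖y‖ * Real.exp (-(y ⬝ᵥ y) / 2) := by
  refine (integrable_poly_gauss (n := n)).mono' (by fun_prop) (Filter.Eventually.of_forall fun y => ?_)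
  rw [Real.norm_eq_abs, abs_of_nonneg (by positivity)]
  refine mul_le_mul_of_nonneg_right ?_ (Real.exp_pos _).le
  have h1 := norm_sq_le y
  nlinarith [sq_nonneg (‖y‖ - 1)]

theorem mulVec_bound (A : Matrix (Fin n) (Fin n) ℝ) : ∃ C : ℝ, 0 ≤ C ∧ ∀ y, ‖A *ᵥ y‖ ≤ C * ‖y‖ := by
  refine ⟨‖LinearMap.toContinuousLinearMap (Matrix.toLin' A)‖, norm_nonneg _, fun y => ?_⟩
  have := (LinearMap.toContinuousLinearMap (Matrix.toLin' A)).le_opNorm y
  simpa using this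

/-- Fubini: the Gaussian mean of the norm. -/
theorem gauss_nrm {μ : Measure (Fin n → ℝ)} [IsFiniteMeasure μ] (hμ : Integrable (fun v => ‖v‖) μ)
    (A : Matrix (Fin n) (Fin n) ℝ) :
    ∫ y, nrm μ (A *ᵥ y) * Real.exp (-(y ⬝ᵥ y) / 2) =
      (Real.sqrt (2 / Real.pi) * ∫ v, Real.sqrt ((Aᵀ *ᵥ v) ⬝ᵥ (Aᵀ *ᵥ v)) ∂μ) *
        Real.sqrt (2 * Real.pi) ^ n := by
  obtain ⟨C, hC0, hC⟩ := mulVec_bound A
  have h1 : ∀ y, nrm μ (A *ᵥ y) * Real.exp (-(y ⬝ᵥ y) / 2) =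
      ∫ v, |(A *ᵥ y) ⬝ᵥ v| * Real.exp (-(y ⬝ᵥ y) / 2) ∂μ := by
    intro y
    rw [integral_mul_const]
    rfl
  simp_rw [h1]
  have hdot : Continuous fun p : (Fin n → ℝ) × (Fin n → ℝ) => (A *ᵥ p.1) ⬝ᵥ p.2 := by
    simp only [dotProduct, Matrix.mulVec]
    fun_prop
  have hint : Integrable (Function.uncurry fun (y : Fin n → ℝ) (v : Fin n → ℝ) =>
      |(A *ᵥ y) ⬝ᵥ v| * Real.exp (-(y ⬝ᵥ y) / 2)) (volume.prod μ) := by
    have h2 := ((integrable_pow_norm_gauss (n := n)).mul_prod hμ).const_mul ((n : ℝ) * C)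
    refine h2.mono' ?_ (Filter.Eventually.of_forall fun p => ?_)
    · have : Continuous (Function.uncurry fun (y : Fin n → ℝ) (v : Fin n → ℝ) =>
        |(A *ᵥ y) ⬝ᵥ v| * Real.exp (-(y ⬝ᵥ y) / 2)) := by
        refine Continuous.mul (hdot.abs) ?_
        simp only [dotProduct]
        fun_prop
      exact this.aestronglyMeasurable
    · rcases p with ⟨y, v⟩
      simp only [Function.uncurry]
      rw [Real.norm_eq_abs, abs_of_nonneg (by positivity)]
      have h3 := abs_dot_le (A *ᵥ y) v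
      have h4 := hC y
      have h5 : |(A *ᵥ y) ⬝ᵥ v| ≤ (n : ℝ) * (C * ‖y‖) * ‖v‖ := by
        refine h3.trans ?_
        gcongr
      calc |(A *ᵥ y) ⬝ᵥ v| * Real.exp (-(y ⬝ᵥ y) / 2) ≤
          ((n : ℝ) * (C * ‖y‖) * ‖v‖) * Real.exp (-(y ⬝ᵥ y) / 2) :=
            mul_le_mul_of_nonneg_right h5 (Real.exp_pos _).le
        _ = (n : ℝ) * C * (‖y‖ * Real.exp (-(y ⬝ᵥ y) / 2) * ‖v‖) := by ring
  rw [integral_integral_swap hint]
  have h6 : ∀ v : Fin n → ℝ, ∫ y : Fin n → ℝ, |(A *ᵥ y) ⬝ᵥ v| * Real.exp (-(y ⬝ᵥ y) / 2) =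
      Real.sqrt (2 / Real.pi) * Real.sqrt ((Aᵀ *ᵥ v) ⬝ᵥ (Aᵀ *ᵥ v)) *
        Real.sqrt (2 * Real.pi) ^ n := by
    intro v
    rw [← gauss_abs (Aᵀ *ᵥ v)]
    refine integral_congr_ae (Filter.Eventually.of_forall fun y => ?_)
    have : (A *ᵥ y) ⬝ᵥ v = (Aᵀ *ᵥ v) ⬝ᵥ y := by
      rw [Matrix.mulVec_transpose, ← Matrix.dotProduct_mulVec, dotProduct_comm]
    simp only [this]
  simp_rw [h6]
  rw [integral_mul_const, integral_const_mul]

/-- D: Jensen. -/
theorem jensen {μ : Measure (Fin n → ℝ)} [IsFiniteMeasure μ] (hμ : Integrable (fun v => ‖v‖) μ)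
    (hK : Bornology.IsBounded {x | nrm μ x ≤ 1}) (A : Matrix (Fin n) (Fin n) ℝ) (hA : A.det ≠ 0)
    {s : ℝ} (hs : 0 < s) :
    s ^ n * |A.det| * (Real.sqrt (2 * Real.pi) ^ n * Real.exp ((n : ℝ) / 2 -
      s * Real.sqrt (2 / Real.pi) * ∫ v, Real.sqrt ((Aᵀ *ᵥ v) ⬝ᵥ (Aᵀ *ᵥ v)) ∂μ)) ≤
      ∫ x, Real.exp (-nrm μ x) := by
  set N := nrm μ with hN
  have hNc : Continuous N := nrm_continuous hμ
  have hNn : ∀ x, 0 ≤ N x := fun x => integral_nonneg fun v => abs_nonneg _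
  -- positivity of the volume and integrability
  have hvol : 0 < (volume {x | N x ≤ 1}).toReal := by
    have hopen : IsOpen {x | N x < 1} := isOpen_lt hNc continuous_const
    have h0 : (0 : Fin n → ℝ) ∈ {x | N x < 1} := by
      show N 0 < 1
      rw [hN, nrm_zero]
      exact one_pos
    have h1 : 0 < volume {x | N x < 1} := hopen.measure_pos _ ⟨0, h0⟩
    have h2 : volume {x | N x < 1} ≤ volume {x | N x ≤ 1} := measure_mono fun x (hx : N x < 1) => (le_of_lt hx : N x ≤ 1)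
    have h3 : volume {x | N x ≤ 1} < ⊤ := hK.measure_lt_top
    exact ENNReal.toReal_pos (h1.trans_le h2).ne' h3.ne
  have hne : ∫ x, Real.exp (-N x) ≠ 0 := by
    rw [hN, integral_exp_nrm hμ hK]
    exact mul_ne_zero (by exact_mod_cast n.factorial_ne_zero) hvol.ne'
  have hsA : (s • A).det ≠ 0 := by
    rw [Matrix.det_smul, Fintype.card_fin]
    exact mul_ne_zero (pow_ne_zero _ hs.ne') hA
  have hcv := integral_lin (s • A) hsA (fun x => Real.exp (-N x))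
  have hdet : |(s • A).det| = s ^ n * |A.det| := by
    rw [Matrix.det_smul, Fintype.card_fin, abs_mul, abs_of_pos (pow_pos hs n)]
  rw [hdet] at hcv
  have hpos : 0 < s ^ n * |A.det| := mul_pos (pow_pos hs n) (abs_pos.2 hA)
  have hNs : ∀ y, N ((s • A) *ᵥ y) = s * N (A *ᵥ y) := by
    intro y
    rw [Matrix.smul_mulVec, hN, nrm_smul, abs_of_pos hs]
  simp only [hNs] at hcv
  have hne2 : ∫ y, Real.exp (-(s * N (A *ᵥ y))) ≠ 0 := by
    intro h
    rw [h, mul_zero] at hcv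
    exact hne hcv
  have hint : Integrable fun y => Real.exp (-(s * N (A *ᵥ y))) := by
    by_contra h
    exact hne2 (integral_undef h)
  rw [hcv]
  refine mul_le_mul_of_nonneg_left ?_ hpos.le
  set c := Real.sqrt (2 * Real.pi) ^ n with hc
  set E := Real.sqrt (2 / Real.pi) * ∫ v, Real.sqrt ((Aᵀ *ᵥ v) ⬝ᵥ (Aᵀ *ᵥ v)) ∂μ with hE
  set m := (n : ℝ) / 2 - s * E with hm
  have hmE : (n : ℝ) / 2 - s * Real.sqrt (2 / Real.pi) *
      ∫ v, Real.sqrt ((Aᵀ *ᵥ v) ⬝ᵥ (Aᵀ *ᵥ v)) ∂μ = m := by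
    rw [hm, hE]; ring
  rw [hmE]
  -- the three Gaussian integrals
  have g1 : ∫ y : Fin n → ℝ, Real.exp (-(y ⬝ᵥ y) / 2) = c := gauss_one
  have g2 : ∫ y : Fin n → ℝ, (y ⬝ᵥ y) * Real.exp (-(y ⬝ᵥ y) / 2) = n * c := gauss_sq
  have g3 : ∫ y, N (A *ᵥ y) * Real.exp (-(y ⬝ᵥ y) / 2) = E * c := gauss_nrm hμ A
  have i1 : Integrable fun y : Fin n → ℝ => Real.exp (-(y ⬝ᵥ y) / 2) := by
    have := integrable_gauss (n := n) (b := 1 / 2) (by norm_num)
    refine this.congr (Filter.Eventually.of_forall fun y => ?_)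
    show Real.exp (-(1 / 2) * (y ⬝ᵥ y)) = Real.exp (-(y ⬝ᵥ y) / 2)
    congr 1
    ring
  have i2 : Integrable fun y : Fin n → ℝ => (y ⬝ᵥ y) * Real.exp (-(y ⬝ᵥ y) / 2) := by
    have := (integrable_poly_gauss (n := n)).sub i1
    refine this.congr (Filter.Eventually.of_forall fun y => ?_)
    show (1 + y ⬝ᵥ y) * Real.exp (-(y ⬝ᵥ y) / 2) - Real.exp (-(y ⬝ᵥ y) / 2) = _
    ring
  have i3 : Integrable fun y : Fin n → ℝ => N (A *ᵥ y) * Real.exp (-(y ⬝ᵥ y) / 2) := by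
    obtain ⟨C, hC0, hC⟩ := mulVec_bound A
    obtain ⟨D, hD0, hD⟩ := nrm_le hμ
    have h2 := (integrable_pow_norm_gauss (n := n)).const_mul (D * C)
    refine h2.mono' ?_ (Filter.Eventually.of_forall fun y => ?_)
    · have hAc : Continuous fun y : Fin n → ℝ => A *ᵥ y :=
        Continuous.matrix_mulVec continuous_const continuous_id
      have h3 : Continuous fun y : Fin n → ℝ => Real.exp (-(y ⬝ᵥ y) / 2) := by
        simp only [dotProduct]
        fun_prop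
      exact ((hNc.comp hAc).mul h3).aestronglyMeasurable
    · rw [Real.norm_eq_abs, abs_of_nonneg (mul_nonneg (hNn _) (Real.exp_pos _).le)]
      have h4 : N (A *ᵥ y) ≤ D * C * ‖y‖ := by
        refine (hD _).trans ?_
        rw [mul_assoc]
        exact mul_le_mul_of_nonneg_left (hC y) hD0
      calc N (A *ᵥ y) * Real.exp (-(y ⬝ᵥ y) / 2) ≤ (D * C * ‖y‖) * Real.exp (-(y ⬝ᵥ y) / 2) :=
            mul_le_mul_of_nonneg_right h4 (Real.exp_pos _).le
        _ = D * C * (‖y‖ * Real.exp (-(y ⬝ᵥ y) / 2)) := by ring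
  -- the tangent line bound
  set F : (Fin n → ℝ) → ℝ := fun y => Real.exp m * ((1 - m) * Real.exp (-(y ⬝ᵥ y) / 2) +
    (1 / 2) * ((y ⬝ᵥ y) * Real.exp (-(y ⬝ᵥ y) / 2)) -
      s * (N (A *ᵥ y) * Real.exp (-(y ⬝ᵥ y) / 2))) with hF
  have hFi : Integrable F :=
    (((i1.const_mul (1 - m)).add (i2.const_mul (1 / 2))).sub (i3.const_mul s)).const_mul _
  have hFint : ∫ y, F y = c * Real.exp m := by
    have e1 : ∫ y : Fin n → ℝ, ((1 - m) * Real.exp (-(y ⬝ᵥ y) / 2) +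
        (1 / 2) * ((y ⬝ᵥ y) * Real.exp (-(y ⬝ᵥ y) / 2))) = (1 - m) * c + (1 / 2) * (n * c) := by
      rw [integral_add (i1.const_mul (1 - m)) (i2.const_mul (1 / 2)), integral_const_mul,
        integral_const_mul, g1, g2]
    have e2 : ∫ y : Fin n → ℝ, ((1 - m) * Real.exp (-(y ⬝ᵥ y) / 2) +
        (1 / 2) * ((y ⬝ᵥ y) * Real.exp (-(y ⬝ᵥ y) / 2)) -
        s * (N (A *ᵥ y) * Real.exp (-(y ⬝ᵥ y) / 2))) =
        (1 - m) * c + (1 / 2) * (n * c) - s * (E * c) := by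
      rw [← e1, ← g3, ← integral_const_mul s]
      exact integral_sub ((i1.const_mul (1 - m)).add (i2.const_mul (1 / 2))) (i3.const_mul s)
    simp only [hF]
    rw [integral_const_mul, e2, hm]
    ring
  rw [← hFint]
  refine integral_mono hFi hint fun y => ?_
  show F y ≤ Real.exp (-(s * N (A *ᵥ y)))
  have h1 : Real.exp (-(s * N (A *ᵥ y))) = Real.exp m * (Real.exp (-(y ⬝ᵥ y) / 2) *
      Real.exp ((y ⬝ᵥ y) / 2 - s * N (A *ᵥ y) - m)) := by
    rw [← Real.exp_add, ← Real.exp_add]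
    congr 1
    ring
  rw [h1, hF]
  refine mul_le_mul_of_nonneg_left ?_ (Real.exp_pos m).le
  have h2 := Real.add_one_le_exp ((y ⬝ᵥ y) / 2 - s * N (A *ᵥ y) - m)
  have h3 := mul_le_mul_of_nonneg_left h2 (Real.exp_pos (-(y ⬝ᵥ y) / 2)).le
  refine le_trans (le_of_eq ?_) h3
  ring

end Vale.Agent.P254.L1
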