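import Mathlib

open MeasureTheory Set
open scoped Matrix

namespace Vale.Agent.P254.L1

/-- The `L₁`-norm given by the measure `μ`: `N(x) = ∫ |⟨x,v⟩| dμ(v)`. -/
noncomputable def nrm {n : ℕ} (μ : Measure (Fin n → ℝ)) (x : Fin n → ℝ) : ℝ :=
  ∫ v, |x ⬝ᵥ v| ∂μ

end Vale.Agent.P254.L1
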