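import Vale.Agent.P254.L1.A3

/-! E1: `c ∫ (v'Σv)^{1/2} dμ ≤ n/(n+1)`, from Berwald's inequality (hypothesis `hB`) and A3. -/

open MeasureTheory Set
open scoped Matrix

namespace Vale.Agent.P254.L1

variable {n : ℕ}

theorem int_sqrt_le_of (hn : 1 ≤ n) {μ : Measure (Fin n → ℝ)} [IsFiniteMeasure μ]
    (hμ : Integrable (fun v => ‖v‖) μ)
    (hK : Bornology.IsBounded {x | nrm μ x ≤ 1})
    (hB : ∀ v : Fin n → ℝ, ((n : ℝ) + 2) * ((volume {x | nrm μ x ≤ 1}).toReal *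
      ∫ x in {x | nrm μ x ≤ 1}, (x ⬝ᵥ v) ^ 2) ≤
      2 * ((n : ℝ) + 1) * (∫ x in {x | nrm μ x ≤ 1}, |x ⬝ᵥ v|) ^ 2) :
    Real.sqrt (((n : ℝ) + 2) / (2 * ((n : ℝ) + 1))) *
      ∫ v, Real.sqrt ((volume {x | nrm μ x ≤ 1}).toReal⁻¹ *
        ∫ x in {x | nrm μ x ≤ 1}, (x ⬝ᵥ v) ^ 2) ∂μ ≤ (n : ℝ) / ((n : ℝ) + 1) := by
  set K : Set (Fin n → ℝ) := {x | nrm μ x ≤ 1} with hKd
  set V : ℝ := (volume K).toReal with hVd
  have hKm : MeasurableSet K := (isClosed_le (a3_cont hμ) continuous_const).measurableSet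
  haveI : IsFiniteMeasure (volume.restrict K) :=
    ⟨by rw [Measure.restrict_apply_univ]; exact hK.measure_lt_top⟩
  have hV0 : 0 ≤ V := ENNReal.toReal_nonneg
  have hn1 : (0 : ℝ) < (n : ℝ) + 1 := by positivity
  -- bound on K
  obtain ⟨R, hR⟩ : ∃ R : ℝ, ∀ x ∈ K, ‖x‖ ≤ R := hK.exists_norm_le
  -- integrability on the product
  have hprod : Integrable (fun p : (Fin n → ℝ) × (Fin n → ℝ) => |p.1 ⬝ᵥ p.2|)
      ((volume.restrict K).prod μ) := by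
    have h1 : Integrable (fun p : (Fin n → ℝ) × (Fin n → ℝ) => ((n : ℝ) * |R|) * ‖p.2‖)
        ((volume.restrict K).prod μ) := (hμ.const_mul ((n : ℝ) * |R|)).comp_snd _
    refine h1.mono' ?_ ?_
    · have : Continuous fun p : (Fin n → ℝ) × (Fin n → ℝ) => |p.1 ⬝ᵥ p.2| := by
        unfold dotProduct
        fun_prop
      exact this.aestronglyMeasurable
    · have hae : ∀ᵐ p ∂((volume.restrict K).prod μ), p.1 ∈ K := by
        have h2 : ∀ᵐ x ∂(volume.restrict K), x ∈ K := ae_restrict_mem hKm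
        exact Measure.quasiMeasurePreserving_fst.ae h2
      filter_upwards [hae] with p hp
      rw [Real.norm_eq_abs, abs_abs]
      refine (a3_abs_dot_le p.1 p.2).trans ?_
      have h3 : ‖p.1‖ ≤ |R| := (hR _ hp).trans (le_abs_self R)
      gcongr
  have hswap : ∫ v, (∫ x in K, |x ⬝ᵥ v|) ∂μ = ∫ x in K, nrm μ x := by
    unfold nrm
    exact (integral_integral_swap (f := fun x v => |x ⬝ᵥ v|) hprod).symm
  have hgi : Integrable (fun v => ∫ x in K, |x ⬝ᵥ v|) μ := hprod.integral_prod_right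
  have hA3 : ((n : ℝ) + 1) * ∫ x in K, nrm μ x = n * V :=
    a3_general (a3_cont hμ) (a3_nonneg μ)
      (fun r x hr => by rw [a3_smul, abs_of_pos hr]) hK
  rcases hV0.eq_or_lt with h0 | hVp
  · rw [← h0]
    simp only [inv_zero, zero_mul, Real.sqrt_zero, integral_zero, mul_zero]
    positivity
  -- pointwise bound
  have hpt : ∀ v : Fin n → ℝ, Real.sqrt (((n : ℝ) + 2) / (2 * ((n : ℝ) + 1))) *
      Real.sqrt (V⁻¹ * ∫ x in K, (x ⬝ᵥ v) ^ 2) ≤ V⁻¹ * ∫ x in K, |x ⬝ᵥ v| := by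
    intro v
    have hI : 0 ≤ ∫ x in K, |x ⬝ᵥ v| := integral_nonneg fun _ => abs_nonneg _
    rw [← Real.sqrt_mul (by positivity)]
    refine Real.sqrt_le_iff.2 ⟨by positivity, ?_⟩
    have h1 := hB v
    rw [div_mul_eq_mul_div, div_le_iff₀ (by positivity)]
    have e1 : (V⁻¹ * ∫ x in K, |x ⬝ᵥ v|) ^ 2 * (2 * ((n : ℝ) + 1)) =
        (V⁻¹) ^ 2 * (2 * ((n : ℝ) + 1) * (∫ x in K, |x ⬝ᵥ v|) ^ 2) := by ring
    have e2 : ((n : ℝ) + 2) * (V⁻¹ * ∫ x in K, (x ⬝ᵥ v) ^ 2) =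
        (V⁻¹) ^ 2 * (((n : ℝ) + 2) * (V * ∫ x in K, (x ⬝ᵥ v) ^ 2)) := by
      field_simp
    rw [e1, e2]
    exact mul_le_mul_of_nonneg_left h1 (by positivity)
  rw [← integral_const_mul]
  calc ∫ v, Real.sqrt (((n : ℝ) + 2) / (2 * ((n : ℝ) + 1))) *
        Real.sqrt (V⁻¹ * ∫ x in K, (x ⬝ᵥ v) ^ 2) ∂μ
      ≤ ∫ v, (V⁻¹ * ∫ x in K, |x ⬝ᵥ v|) ∂μ := by
        refine integral_mono_of_nonneg (Filter.Eventually.of_forall fun v => by positivity)
          (hgi.const_mul _) (Filter.Eventually.of_forall hpt)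
    _ = V⁻¹ * ∫ x in K, nrm μ x := by
        rw [integral_const_mul, hswap]
    _ = (n : ℝ) / ((n : ℝ) + 1) := by
        rw [eq_div_iff hn1.ne']
        have : V⁻¹ * (∫ x in K, nrm μ x) * ((n : ℝ) + 1) =
            V⁻¹ * (((n : ℝ) + 1) * ∫ x in K, nrm μ x) := by ring
        rw [this, hA3]
        field_simp

end Vale.Agent.P254.L1
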