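import Vale.Agent.P254.L1.A1
import Vale.Agent.P254.L1.B
import Vale.Agent.P254.L1.E1

open MeasureTheory Set
open scoped Matrix

namespace Vale.Agent.P254.L1

variable {n : ℕ}

/-- `Σ v·v` lower bound, integrated: `c ∫ (v'Σv)^{1/2} dμ ≤ n/(n+1)`, `c² = (n+2)/(2(n+1))` -/
theorem int_sqrt_le (hn : 1 ≤ n) {μ : Measure (Fin n → ℝ)} [IsFiniteMeasure μ]
    (hμ : Integrable (fun v => ‖v‖) μ)
    (hK : Bornology.IsBounded {x | nrm μ x ≤ 1}) :
    Real.sqrt (((n : ℝ) + 2) / (2 * ((n : ℝ) + 1))) *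
      ∫ v, Real.sqrt ((volume {x | nrm μ x ≤ 1}).toReal⁻¹ *
        ∫ x in {x | nrm μ x ≤ 1}, (x ⬝ᵥ v) ^ 2) ∂μ ≤ (n : ℝ) / ((n : ℝ) + 1) := by
  refine int_sqrt_le_of hn hμ hK fun v => ?_
  have hcl : IsClosed {x | nrm μ x ≤ 1} := isClosed_le (nrm_continuous hμ) continuous_const
  have hcp : IsCompact {x | nrm μ x ≤ 1} := Metric.isCompact_of_isClosed_isBounded hcl hK
  have hcv : Convex ℝ {x | nrm μ x ≤ 1} := by
    intro x hx y hy a b ha hb hab
    simp only [mem_setOf_eq] at hx hy ⊢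
    refine (nrm_add hμ _ _).trans ?_
    rw [nrm_smul, nrm_smul, abs_of_nonneg ha, abs_of_nonneg hb]
    nlinarith
  exact berwald_even hn hcv hcp (fun x hx => by
    simp only [mem_setOf_eq] at hx ⊢
    rwa [nrm_neg]) v

end Vale.Agent.P254.L1
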