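import Vale.Agent.P254.L1.D
import Vale.Agent.P254.L1.E1b
import Vale.Agent.P254.Criterion

/-! P254, `L₁` balls, block E: assembly. -/

open MeasureTheory Set Matrix
open scoped Matrix MatrixOrder

namespace Vale.Agent.P254.L1

variable {n : ℕ}

theorem ball_isCompact {μ : Measure (Fin n → ℝ)} (hμ : Integrable (fun v => ‖v‖) μ)
    (hK : Bornology.IsBounded {x | nrm μ x ≤ 1}) : IsCompact {x | nrm μ x ≤ 1} :=
  Metric.isCompact_of_isClosed_isBounded (isClosed_le (nrm_continuous hμ) continuous_const) hK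

theorem ball_centroid {μ : Measure (Fin n → ℝ)} : centroid {x | nrm μ x ≤ 1} = 0 := by
  ext i
  simp only [centroid, Pi.zero_apply]
  have h : ∫ x in {x | nrm μ x ≤ 1}, x i = -∫ x in {x | nrm μ x ≤ 1}, x i := by
    have hmp : MeasurePreserving (fun x : Fin n → ℝ => -x) volume volume :=
      Measure.measurePreserving_neg volume
    have hpre : (fun x : Fin n → ℝ => -x) ⁻¹' {x | nrm μ x ≤ 1} = {x | nrm μ x ≤ 1} := by
      ext x
      simp only [mem_preimage, mem_ofPred_eq, nrm_neg]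
    have h1 := hmp.setIntegral_preimage_emb (MeasurableEquiv.neg (Fin n → ℝ)).measurableEmbedding
      (fun x => x i) {x | nrm μ x ≤ 1}
    rw [hpre] at h1
    calc ∫ x in {x | nrm μ x ≤ 1}, x i = ∫ x in {x | nrm μ x ≤ 1}, (-x) i := h1.symm
      _ = -∫ x in {x | nrm μ x ≤ 1}, x i := by
        rw [← integral_neg]
        rfl
  have h0 : ∫ x in {x | nrm μ x ≤ 1}, x i = 0 := by linarith
  rw [h0, mul_zero]

/-- The bound for the isotropic constant of the unit ball of a subspace of `L₁`. -/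
theorem l1_body (hn : 1 ≤ n) {μ : Measure (Fin n → ℝ)} [IsFiniteMeasure μ]
    (hμ : Integrable (fun v => ‖v‖) μ) (hK : Bornology.IsBounded {x | nrm μ x ≤ 1}) :
    (covMatrix {x | nrm μ x ≤ 1}).det / (volume {x | nrm μ x ≤ 1}).toReal ^ 2 ≤
      (n.factorial : ℝ) ^ 2 *
        (2 * Real.exp 1 / (Real.pi ^ 2 * (((n : ℝ) + 1) * ((n : ℝ) + 2)))) ^ n := by
  set K := {x | nrm μ x ≤ 1} with hKdef
  have hKc : IsCompact K := ball_isCompact hμ hK
  set V := (volume K).toReal with hV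
  have hn0 : (0 : ℝ) < n := by exact_mod_cast hn
  rcases le_or_gt (covMatrix K).det 0 with hd | hd
  · refine (div_nonpos_of_nonpos_of_nonneg hd (sq_nonneg _)).trans ?_
    positivity
  obtain ⟨B, hB⟩ := CStarAlgebra.nonneg_iff_eq_star_mul_self.mp (covMatrix_posSemidef hKc).nonneg
  have hBt : covMatrix K = Bᵀ * B := by
    rw [hB]
    congr 1
  have hdet : (covMatrix K).det = |Bᵀ.det| ^ 2 := by
    rw [hBt, det_mul, det_transpose, sq_abs, sq]
  have hA : Bᵀ.det ≠ 0 := by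
    intro h
    rw [hdet, h] at hd
    simp at hd
  -- the quadratic form
  have hq : ∀ v : Fin n → ℝ, ((Bᵀ)ᵀ *ᵥ v) ⬝ᵥ ((Bᵀ)ᵀ *ᵥ v) = V⁻¹ * ∫ x in K, (x ⬝ᵥ v) ^ 2 := by
    intro v
    have h1 : (B *ᵥ v) ⬝ᵥ (B *ᵥ v) = ∑ i, ∑ j, v i * covMatrix K i j * v j := by
      have h2 : (B *ᵥ v) ⬝ᵥ (B *ᵥ v) = v ⬝ᵥ (covMatrix K *ᵥ v) := by
        rw [hBt, ← mulVec_mulVec, dotProduct_mulVec v, vecMul_transpose]
      rw [h2]
      simp only [dotProduct, mulVec, Finset.mul_sum]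
      refine Finset.sum_congr rfl fun i _ => Finset.sum_congr rfl fun j _ => ?_
      ring
    rw [transpose_transpose, h1, cov_quad hKc, ball_centroid]
    congr 1
    refine integral_congr_ae (Filter.Eventually.of_forall fun x => ?_)
    simp only [Pi.zero_apply, sub_zero, dotProduct]
    congr 1
    exact Finset.sum_congr rfl fun i _ => mul_comm _ _
  set c := Real.sqrt (((n : ℝ) + 2) / (2 * ((n : ℝ) + 1))) with hc
  have hc2 : c ^ 2 = ((n : ℝ) + 2) / (2 * ((n : ℝ) + 1)) := Real.sq_sqrt (by positivity)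
  have hc0 : 0 < c := Real.sqrt_pos.2 (by positivity)
  set I := ∫ v, Real.sqrt (((Bᵀ)ᵀ *ᵥ v) ⬝ᵥ ((Bᵀ)ᵀ *ᵥ v)) ∂μ with hI
  have hI1 : c * I ≤ (n : ℝ) / ((n : ℝ) + 1) := by
    have := int_sqrt_le hn hμ hK
    rw [hI]
    simp_rw [hq]
    exact this
  set s := ((n : ℝ) + 1) * c * Real.sqrt (Real.pi / 2) with hs
  have hs0 : 0 < s := by
    have : 0 < Real.sqrt (Real.pi / 2) := Real.sqrt_pos.2 (by positivity)
    positivity
  have hJ := jensen hμ hK Bᵀ hA hs0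
  rw [integral_exp_nrm hμ hK] at hJ
  rw [← hI] at hJ
  have hss : Real.sqrt (Real.pi / 2) * Real.sqrt (2 / Real.pi) = 1 := by
    rw [← Real.sqrt_mul (by positivity)]
    have : Real.pi / 2 * (2 / Real.pi) = 1 := by field_simp
    rw [this, Real.sqrt_one]
  have hexp : s * Real.sqrt (2 / Real.pi) * I ≤ n := by
    calc s * Real.sqrt (2 / Real.pi) * I =
        ((n : ℝ) + 1) * (c * I) * (Real.sqrt (Real.pi / 2) * Real.sqrt (2 / Real.pi)) := by
          rw [hs]; ring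
      _ = ((n : ℝ) + 1) * (c * I) := by rw [hss, mul_one]
      _ ≤ ((n : ℝ) + 1) * ((n : ℝ) / ((n : ℝ) + 1)) :=
          mul_le_mul_of_nonneg_left hI1 (by positivity)
      _ = n := by field_simp
  have hJ2 : s ^ n * |Bᵀ.det| * (Real.sqrt (2 * Real.pi) ^ n * Real.exp (-(n : ℝ) / 2)) ≤
      n.factorial * V := by
    refine le_trans ?_ hJ
    refine mul_le_mul_of_nonneg_left ?_ (by positivity)
    refine mul_le_mul_of_nonneg_left ?_ (by positivity)
    exact Real.exp_le_exp.2 (by linarith)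
  -- square
  have hL0 : 0 ≤ s ^ n * |Bᵀ.det| * (Real.sqrt (2 * Real.pi) ^ n * Real.exp (-(n : ℝ) / 2)) := by
    positivity
  have hsq := pow_le_pow_left₀ hL0 hJ2 2
  have hleft : (s ^ n * |Bᵀ.det| * (Real.sqrt (2 * Real.pi) ^ n * Real.exp (-(n : ℝ) / 2))) ^ 2 =
      (covMatrix K).det * (Real.pi ^ 2 * (((n : ℝ) + 1) * ((n : ℝ) + 2)) / (2 * Real.exp 1)) ^ n := by
    have e1 : Real.exp (-(n : ℝ) / 2) ^ 2 = (Real.exp 1)⁻¹ ^ n := by
      rw [← Real.exp_neg, ← Real.exp_nat_mul, ← Real.exp_nat_mul]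
      congr 1
      push_cast
      ring
    have e2 : s ^ 2 * (2 * Real.pi) * (Real.exp 1)⁻¹ =
        Real.pi ^ 2 * (((n : ℝ) + 1) * ((n : ℝ) + 2)) / (2 * Real.exp 1) := by
      have e3 : s ^ 2 = ((n : ℝ) + 1) ^ 2 * c ^ 2 * (Real.pi / 2) := by
        rw [hs, mul_pow, mul_pow, Real.sq_sqrt (show (0 : ℝ) ≤ Real.pi / 2 by positivity)]
      rw [e3, hc2]
      have := (Real.exp_pos 1).ne'
      field_simp
    have e4 : (s ^ n) ^ 2 = (s ^ 2) ^ n := by rw [← pow_mul, ← pow_mul, mul_comm]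
    have e5 : (Real.sqrt (2 * Real.pi) ^ n) ^ 2 = (2 * Real.pi) ^ n := by
      rw [← pow_mul, mul_comm n 2, pow_mul, Real.sq_sqrt (show (0 : ℝ) ≤ 2 * Real.pi by positivity)]
    calc (s ^ n * |Bᵀ.det| * (Real.sqrt (2 * Real.pi) ^ n * Real.exp (-(n : ℝ) / 2))) ^ 2 =
        |Bᵀ.det| ^ 2 * ((s ^ n) ^ 2 * (Real.sqrt (2 * Real.pi) ^ n) ^ 2 *
          Real.exp (-(n : ℝ) / 2) ^ 2) := by ring
      _ = (covMatrix K).det * (s ^ 2 * (2 * Real.pi) * (Real.exp 1)⁻¹) ^ n := by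
          rw [e1, e4, e5, ← hdet, mul_pow (s ^ 2 * (2 * Real.pi)), mul_pow (s ^ 2)]
      _ = _ := by rw [e2]
  rw [hleft] at hsq
  have hVpos : 0 < V ^ 2 := by
    have h1 : 0 < (covMatrix K).det *
        (Real.pi ^ 2 * (((n : ℝ) + 1) * ((n : ℝ) + 2)) / (2 * Real.exp 1)) ^ n := by positivity
    have h2 := lt_of_lt_of_le h1 hsq
    rw [mul_pow] at h2
    by_contra h
    have : V ^ 2 = 0 := le_antisymm (not_lt.1 h) (sq_nonneg _)
    rw [this, mul_zero] at h2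
    exact lt_irrefl _ h2
  rw [div_le_iff₀ hVpos]
  have h3 : (2 * Real.exp 1 / (Real.pi ^ 2 * (((n : ℝ) + 1) * ((n : ℝ) + 2)))) ^ n =
      ((Real.pi ^ 2 * (((n : ℝ) + 1) * ((n : ℝ) + 2)) / (2 * Real.exp 1)) ^ n)⁻¹ := by
    rw [← inv_pow, inv_div]
  rw [h3]
  have h4 : 0 < (Real.pi ^ 2 * (((n : ℝ) + 1) * ((n : ℝ) + 2)) / (2 * Real.exp 1)) ^ n := by
    positivity
  rw [mul_assoc, mul_comm (((Real.pi ^ 2 * (((n : ℝ) + 1) * ((n : ℝ) + 2)) / (2 * Real.exp 1)) ^ n)⁻¹),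
    ← mul_assoc, ← div_eq_mul_inv, le_div_iff₀ h4]
  calc _ ≤ _ := hsq
    _ = _ := by ring

end Vale.Agent.P254.L1
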