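import Mathlib

namespace Vale.Agent.P254.L1

theorem num_l1 (n : ℕ) (hn : 2 ≤ n) : ((n : ℝ) + 1) * (2 * Real.exp 1) ^ n < (Real.pi ^ 2) ^ n := by
  have he : Real.exp 1 < 2.7182818286 := Real.exp_one_lt_d9
  have hpi : 3.1415 < Real.pi := Real.pi_gt_d4
  have he0 : 0 < Real.exp 1 := Real.exp_pos 1
  have hP : (9.869 : ℝ) < Real.pi ^ 2 := by nlinarith
  have hE : 2 * Real.exp 1 < 5.4366 := by linarith
  induction n, hn using Nat.le_induction with
  | base =>
    have h1 : (2 * Real.exp 1) ^ 2 < 5.4366 ^ 2 := by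
      apply pow_lt_pow_left₀ hE (by positivity) (by norm_num)
    have h2 : (9.869 : ℝ) ^ 2 < (Real.pi ^ 2) ^ 2 := by
      apply pow_lt_pow_left₀ hP (by norm_num) (by norm_num)
    norm_num at h1 h2 ⊢
    linarith
  | succ k hk ih =>
    have hk' : (2 : ℝ) ≤ k := by exact_mod_cast hk
    have hpow : 0 < (Real.pi ^ 2) ^ k := by positivity
    have hpowE : 0 < (2 * Real.exp 1) ^ k := by positivity
    push_cast
    have h3 : ((k : ℝ) + 1 + 1) * (2 * Real.exp 1) ≤ ((k : ℝ) + 1) * Real.pi ^ 2 := by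
      nlinarith
    calc ((k : ℝ) + 1 + 1) * (2 * Real.exp 1) ^ (k + 1)
        = (((k : ℝ) + 1 + 1) * (2 * Real.exp 1)) * (2 * Real.exp 1) ^ k := by ring
      _ ≤ (((k : ℝ) + 1) * Real.pi ^ 2) * (2 * Real.exp 1) ^ k :=
          mul_le_mul_of_nonneg_right h3 hpowE.le
      _ = (((k : ℝ) + 1) * (2 * Real.exp 1) ^ k) * Real.pi ^ 2 := by ring
      _ < (Real.pi ^ 2) ^ k * Real.pi ^ 2 := mul_lt_mul_of_pos_right ih (by positivity)
      _ = (Real.pi ^ 2) ^ (k + 1) := by ring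

end Vale.Agent.P254.L1
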