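import Vale.Agent.P254.L1.Defs

/-! Statement sheet (P254, unit balls of subspaces of `L₁`); not imported. Each block has its own
file `Vale/Agent/P254/L1/<Block>.lean`, same namespace, same names. -/

open MeasureTheory Set
open scoped Matrix

namespace Vale.Agent.P254.L1

variable {n : ℕ}

/-! Block A (file L1/A.lean): the norm -/

theorem nrm_zero (μ : Measure (Fin n → ℝ)) : nrm μ 0 = 0 := sorry
theorem nrm_neg (μ : Measure (Fin n → ℝ)) (x : Fin n → ℝ) : nrm μ (-x) = nrm μ x := sorry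
theorem nrm_smul (μ : Measure (Fin n → ℝ)) (r : ℝ) (x : Fin n → ℝ) :
    nrm μ (r • x) = |r| * nrm μ x := sorry
theorem nrm_add {μ : Measure (Fin n → ℝ)} (hμ : Integrable (fun v => ‖v‖) μ) (x y : Fin n → ℝ) :
    nrm μ (x + y) ≤ nrm μ x + nrm μ y := sorry
theorem nrm_le {μ : Measure (Fin n → ℝ)} (hμ : Integrable (fun v => ‖v‖) μ) :
    ∃ C, 0 ≤ C ∧ ∀ x, nrm μ x ≤ C * ‖x‖ := sorry
theorem nrm_continuous {μ : Measure (Fin n → ℝ)} (hμ : Integrable (fun v => ‖v‖) μ) :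
    Continuous (nrm μ) := sorry
theorem nrm_pos {μ : Measure (Fin n → ℝ)}
    (hK : Bornology.IsBounded {x | nrm μ x ≤ 1}) {x : Fin n → ℝ} (hx : x ≠ 0) : 0 < nrm μ x := sorry

/-- A: `∫ e^{-N} = n! |K|`  (Mathlib: `MeasureTheory.measure_lt_one_eq_integral_div_gamma`) -/
theorem integral_exp_nrm {μ : Measure (Fin n → ℝ)} (hμ : Integrable (fun v => ‖v‖) μ)
    (hK : Bornology.IsBounded {x | nrm μ x ≤ 1}) :
    ∫ x, Real.exp (-nrm μ x) = n.factorial * (volume {x | nrm μ x ≤ 1}).toReal := sorry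

/-- A: `∫_K N = n/(n+1) |K|` (layer cake, `|{N ≤ t}| = t^n |K|`) -/
theorem setIntegral_nrm {μ : Measure (Fin n → ℝ)} (hμ : Integrable (fun v => ‖v‖) μ)
    (hK : Bornology.IsBounded {x | nrm μ x ≤ 1}) :
    ((n : ℝ) + 1) * ∫ x in {x | nrm μ x ≤ 1}, nrm μ x =
      n * (volume {x | nrm μ x ≤ 1}).toReal := sorry

/-! Block B (file L1/B.lean): Berwald for even bodies and linear functionals.
From `Vale.Agent.P254.Unc.berwald` (Unc/Ber.lean or Unc/Berwald.lean: half body, after a linear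
change of variables; `Vale/Agent/P254/Affine.lean` has the change of variables). -/
theorem berwald_even (hn : 1 ≤ n) {K : Set (Fin n → ℝ)} (hc : Convex ℝ K) (hK : IsCompact K)
    (hs : ∀ x ∈ K, -x ∈ K) (v : Fin n → ℝ) :
    ((n : ℝ) + 2) * ((volume K).toReal * ∫ x in K, (x ⬝ᵥ v) ^ 2) ≤
      2 * ((n : ℝ) + 1) * (∫ x in K, |x ⬝ᵥ v|) ^ 2 := sorry

/-! Block C (file L1/C.lean): Gaussian integrals -/
theorem gauss_one : ∫ y : Fin n → ℝ, Real.exp (-(y ⬝ᵥ y) / 2) = Real.sqrt (2 * Real.pi) ^ n := sorry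
theorem gauss_sq : ∫ y : Fin n → ℝ, (y ⬝ᵥ y) * Real.exp (-(y ⬝ᵥ y) / 2) =
    n * Real.sqrt (2 * Real.pi) ^ n := sorry
/-- upper bound is enough; rotation, or the law of `w ⬝ᵥ g` is `N(0,|w|²)` -/
theorem gauss_abs (w : Fin n → ℝ) : ∫ y : Fin n → ℝ, |w ⬝ᵥ y| * Real.exp (-(y ⬝ᵥ y) / 2) =
    Real.sqrt (2 / Real.pi) * Real.sqrt (w ⬝ᵥ w) * Real.sqrt (2 * Real.pi) ^ n := sorry

/-! Block D (file L1/D.lean): Jensen. `e^f ≥ e^m (1 + f - m)` with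
`f y = (y⬝y)/2 - s N(A y)`, `m = n/2 - s E`. -/
theorem jensen {μ : Measure (Fin n → ℝ)} [IsFiniteMeasure μ] (hμ : Integrable (fun v => ‖v‖) μ)
    (hK : Bornology.IsBounded {x | nrm μ x ≤ 1}) (A : Matrix (Fin n) (Fin n) ℝ) (hA : A.det ≠ 0)
    {s : ℝ} (hs : 0 < s) :
    s ^ n * |A.det| * (Real.sqrt (2 * Real.pi) ^ n * Real.exp ((n : ℝ) / 2 -
      s * Real.sqrt (2 / Real.pi) * ∫ v, Real.sqrt ((Aᵀ *ᵥ v) ⬝ᵥ (Aᵀ *ᵥ v)) ∂μ)) ≤
      ∫ x, Real.exp (-nrm μ x) := sorry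

/-! Block E (file L1/E.lean): assembly -/
theorem num_l1 (n : ℕ) (hn : 2 ≤ n) : ((n : ℝ) + 1) * (2 * Real.exp 1) ^ n < (Real.pi ^ 2) ^ n :=
  sorry

/-- `Σ v·v` lower bound, integrated: `c ∫ (v'Σv)^{1/2} dμ ≤ n/(n+1)`, `c² = (n+2)/(2(n+1))` -/
theorem int_sqrt_le (hn : 1 ≤ n) {μ : Measure (Fin n → ℝ)} [IsFiniteMeasure μ]
    (hμ : Integrable (fun v => ‖v‖) μ)
    (hK : Bornology.IsBounded {x | nrm μ x ≤ 1}) :
    Real.sqrt (((n : ℝ) + 2) / (2 * ((n : ℝ) + 1))) *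
      ∫ v, Real.sqrt ((volume {x | nrm μ x ≤ 1}).toReal⁻¹ *
        ∫ x in {x | nrm μ x ≤ 1}, (x ⬝ᵥ v) ^ 2) ∂μ ≤ (n : ℝ) / ((n : ℝ) + 1) := sorry

end Vale.Agent.P254.L1
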